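import Vale.Agent.P026Z.Sym.Sext
import Vale.Agent.P006.CLS.Final

/-!
P026, block SYM: the powers of the sextic symbol modulo an odd primary squarefree number are
primitive characters.
-/

namespace Vale.Agent.P026Z.Sym

open Vale.Agent.P006 Vale.Agent.P006.V1

theorem exists_x6_pow_ne_one {π : O} (hπ : Prime π) (hp : Primary π) (h2 : IsCoprime π 2) {j : ℕ}
    (hj : ¬ 6 ∣ j) : ∃ u, ¬ π ∣ u ∧ x6 π u ^ j ≠ 1 := by
  have hcop : ∀ u : O, IsCoprime u π ↔ ¬ π ∣ u := fun u => by
    rw [isCoprime_comm]; exact hπ.coprime_iff_not_dvd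
  rcases Nat.even_or_odd j with he | ho
  · obtain ⟨u, hu, h1⟩ := CLS.exists_sym_ne_one' hπ hp.not_lam_dvd
    refine ⟨u, hu, fun h => h1 ?_⟩
    have h3 : ch π u ^ 3 = 1 := by rw [ch_pow_three, cop_of_coprime ((hcop u).2 hu)]
    have h4 : ch π u ^ j = 1 := by rw [← x6_sq, ← pow_mul, mul_comm, pow_mul, h, one_pow]
    have h5 : Nat.gcd 3 j = 1 := by
      rw [← Nat.coprime_iff_gcd_eq_one, Nat.Prime.coprime_iff_not_dvd Nat.prime_three]
      intro h6
      obtain ⟨k, hk⟩ := he
      omega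
    have h6 : ch π u = 1 := by
      have := pow_gcd_eq_one.2 ⟨h3, h4⟩
      rwa [h5, pow_one] at this
    apply toC_injective
    rw [map_one]; exact h6
  · obtain ⟨u, hu, h1⟩ := exists_q2_eq_neg_one hπ h2
    refine ⟨u, (hcop u).1 hu, fun h => ?_⟩
    have h3 : rho π u ^ j = 1 := by rw [← x6_cube, ← pow_mul, mul_comm, pow_mul, h, one_pow]
    rw [rho, h1, Int.cast_neg, Int.cast_one, ho.neg_one_pow] at h3
    norm_num at h3

theorem pchar_x6_pow {n : O} (hn : Primary n) (hs : Squarefree n) (h2 : IsCoprime n 2) {j : ℕ}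
    (hj : ¬ 6 ∣ j) : CLS.PChar n (fun a => x6 n a ^ j) := by
  have hj0 : j ≠ 0 := by rintro rfl; exact hj (dvd_zero _)
  revert hs h2
  refine Primary.induction (P := fun n => Squarefree n → IsCoprime n 2 →
    CLS.PChar n (fun a => x6 n a ^ j)) ?_ ?_ n hn
  · intro _ _
    simpa using CLS.PChar.one_char
  · intro π b hπ hπp hb ih hsq h2
    have hsqb : Squarefree b := hsq.squarefree_of_dvd (dvd_mul_left b π)
    have hcop : IsCoprime π b := by
      rw [hπ.coprime_iff_not_dvd]
      intro hd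
      exact hπ.not_isUnit (hsq π (mul_dvd_mul_left π hd))
    have hc : ∀ u : O, IsCoprime u π ↔ ¬ π ∣ u := fun u => by
      rw [isCoprime_comm]; exact hπ.coprime_iff_not_dvd
    have h1 : CLS.PChar π (fun a => x6 π a ^ j) := by
      apply CLS.PChar.of_prime hπ hπp.isCoprime_lam.symm
      · intro a a' haa; rw [x6_per π a a' haa]
      · intro a a'; rw [x6_mul, mul_pow]
      · simp
      · intro a ha; rw [norm_pow, norm_x6 ((hc a).2 ha), one_pow]
      · intro a ha
        rw [x6_eq_zero.2 (fun h => (hc a).1 h ha), zero_pow hj0]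
      · exact exists_x6_pow_ne_one hπ hπp (odd_mul_iff.1 h2).1 hj
    have h3 := h1.mul_coprime (ih hsqb (odd_mul_iff.1 h2).2) hcop
    have h4 : (fun a => x6 (π * b) a ^ j) = fun a => x6 π a ^ j * x6 b a ^ j := by
      funext a; rw [x6_mul_left hπ.ne_zero hb.ne_zero, mul_pow]
    rw [h4]
    exact h3

theorem pchar_x6 {n : O} (hn : Primary n) (hs : Squarefree n) (h2 : IsCoprime n 2) :
    CLS.PChar n (x6 n) := by
  have h := pchar_x6_pow hn hs h2 (j := 1) (by norm_num)
  simpa only [pow_one] using h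

theorem pchar_rho {n : O} (hn : Primary n) (hs : Squarefree n) (h2 : IsCoprime n 2) :
    CLS.PChar n (rho n) := by
  have h := pchar_x6_pow hn hs h2 (j := 3) (by norm_num)
  simpa only [x6_cube] using h

end Vale.Agent.P026Z.Sym
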