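import Vale.Agent.P006.PS.Pair
import Mathlib.Analysis.SpecialFunctions.Gaussian.FourierTransform
import Mathlib.Analysis.Normed.Group.Tannery

/-!
P026, block SYM: Hecke's theta function of the ring `O` and the evaluation of the complete
quadratic Gauss sum `∑_{y mod 2c} e(Tr(y²/(4 √-3 c))) = 2 √(N c)`.
-/

namespace Vale.Agent.P026Z.Sym

open Vale.Agent.P006 Vale.Agent.P006.V1 MeasureTheory Filter Topology
open Vale.Agent.P006.PO (eT FT Dec rt3)
open scoped ComplexConjugate Real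

/-- the Gaussian `exp(-2π t |z|²)` -/
noncomputable def Ga (t : ℝ) (z : ℂ) : ℝ := Real.exp (-(2 * π * t * ‖z‖ ^ 2))

/-- the Gaussian with a quadratic phase -/
noncomputable def F (t : ℝ) (β z : ℂ) : ℂ := (Ga t z : ℂ) * eT (β * z ^ 2)

theorem Ga_pos (t : ℝ) (z : ℂ) : 0 < Ga t z := Real.exp_pos _

theorem norm_F (t : ℝ) (β z : ℂ) : ‖F t β z‖ = Ga t z := by
  rw [F, norm_mul, PO.norm_eT, mul_one, Complex.norm_real, Real.norm_of_nonneg (Ga_pos t z).le]

theorem sqrt3_pos : 0 < Real.sqrt 3 := by positivity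

theorem sqrt3_sq : Real.sqrt 3 ^ 2 = 3 := Real.sq_sqrt (by norm_num)

theorem gau_eq {t : ℝ} (ht : 0 < t) (z : ℂ) : PS.gau (1 / (Real.sqrt 3 * t)) z = Ga t z := by
  rw [PS.gau, Ga, PS.b0]
  congr 3
  have := sqrt3_pos
  field_simp

theorem gau_eq' {t : ℝ} (ht : 0 < t) (z : ℂ) :
    PS.gau (1 / (3 * (1 / (Real.sqrt 3 * t)))) z = Ga (1 / t) z := by
  rw [PS.gau, Ga, PS.b0]
  congr 3
  have h := sqrt3_pos
  have h2 := sqrt3_sq
  field_simp
  linear_combination (-(‖z‖ ^ 2)) * h2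

theorem F_dec {t : ℝ} (ht : 0 < t) (β : ℂ) : Dec (F t β) := by
  obtain ⟨C, hC⟩ := PS.gau_dec (A := 1 / (Real.sqrt 3 * t)) (by have := sqrt3_pos; positivity)
  refine ⟨C, fun z => ?_⟩
  have h := hC z
  rw [gau_eq ht, Complex.norm_real, Real.norm_of_nonneg (Ga_pos t z).le] at h
  rwa [norm_F]

theorem F_continuous (t : ℝ) (β : ℂ) : Continuous (F t β) := by
  unfold F Ga
  have := PO.continuous_eT
  fun_prop

theorem F_eq_exp (t : ℝ) (β z : ℂ) :
    F t β z = Complex.exp (-(2 * π * t * (z.re ^ 2 + z.im ^ 2)) +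
      2 * π * Complex.I * (2 * ((β * z ^ 2).re : ℝ))) := by
  rw [F, Ga, PO.eT, e, TrC, Complex.exp_add, ← Complex.normSq_eq_norm_sq, Complex.normSq_apply]
  push_cast
  congr 3
  ring

theorem cpow_half_mul_conj {a : ℂ} (ha : 0 < a.re) :
    a ^ (1 / 2 : ℂ) * (conj a) ^ (1 / 2 : ℂ) = (‖a‖ : ℝ) := by
  have harg : a.arg ≠ π := by
    rw [Ne, Complex.arg_eq_pi_iff]
    rintro ⟨h, -⟩
    linarith
  have h2 : conj (1 / 2 : ℂ) = 1 / 2 := by
    rw [map_div₀, map_one, map_ofNat]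
  rw [Complex.conj_cpow a _ harg, h2, Complex.mul_conj, Complex.normSq_eq_norm_sq]
  have h3 : (1 / 2 : ℂ) = ((1 / 2 : ℝ) : ℂ) := by push_cast; rfl
  rw [h3, Complex.norm_cpow_real, ← Real.sqrt_eq_rpow, Real.sq_sqrt (norm_nonneg _)]

theorem FT_F_one {s : ℝ} (hs : 0 < s) (w : ℂ) :
    FT (F s 1) w = ((1 / (2 * Real.sqrt (s ^ 2 + 4)) : ℝ) : ℂ) *
      F (s / (s ^ 2 + 4)) (-(1 / ((s ^ 2 + 4 : ℝ) : ℂ))) w := by
  set b : ℂ := -(2 * π * s) + 4 * π * Complex.I with hb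
  set b' : ℂ := -(2 * π * s) - 4 * π * Complex.I with hb'
  set f : ℝ → ℂ := fun x => Complex.exp (b * x ^ 2 + (-(4 * π * Complex.I * w.re)) * x + 0) with hf
  set g : ℝ → ℂ := fun y => Complex.exp (b' * y ^ 2 + (4 * π * Complex.I * w.im) * y + 0) with hg
  have h1 : FT (F s 1) w = ∫ z : ℂ, (fun p : ℝ × ℝ => f p.1 * g p.2)
      (Complex.measurableEquivRealProd z) := by
    rw [PO.FT]
    congr 1
    funext z
    rw [F_eq_exp, PO.eT, e, TrC, ← Complex.exp_add]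
    simp only [Complex.measurableEquivRealProd_apply, hf, hg, ← Complex.exp_add]
    congr 1
    simp only [hb, hb', one_mul, sq, Complex.neg_re, Complex.mul_re]
    push_cast
    ring
  have hpi := Real.pi_pos
  have hbre : b.re < 0 := by
    have : b.re = -(2 * π * s) := by simp [hb]
    rw [this, neg_lt_zero]; positivity
  have hbre' : b'.re < 0 := by
    have : b'.re = -(2 * π * s) := by simp [hb']
    rw [this, neg_lt_zero]; positivity
  rw [h1, Complex.volume_preserving_equiv_real_prod.integral_comp'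
    (fun p : ℝ × ℝ => f p.1 * g p.2), Measure.volume_eq_prod,
    integral_prod_mul, hf, hg, integral_cexp_quadratic hbre, integral_cexp_quadratic hbre']
  have hD : (0 : ℝ) < s ^ 2 + 4 := by positivity
  have hDc : ((s : ℂ) ^ 2 + 4) ≠ 0 := by exact_mod_cast hD.ne'
  have hpc : (π : ℂ) ≠ 0 := by exact_mod_cast hpi.ne'
  have hb0 : b ≠ 0 := by intro h; rw [h] at hbre; simp at hbre
  have hb0' : b' ≠ 0 := by intro h; rw [h] at hbre'; simp at hbre'
  have hbb : b * b' = 4 * π ^ 2 * (s ^ 2 + 4) := by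
    rw [hb, hb']
    linear_combination (-16 * (π : ℂ) ^ 2) * Complex.I_sq
  have hconj : (π : ℂ) / -b' = conj ((π : ℂ) / -b) := by
    rw [map_div₀, Complex.conj_ofReal, hb, hb']
    congr 1
    simp only [map_neg, map_add, map_mul, map_ofNat, Complex.conj_ofReal, Complex.conj_I]
    ring
  have hre : 0 < ((π : ℂ) / -b).re := by
    rw [Complex.div_re]
    simp only [Complex.ofReal_re, Complex.ofReal_im, zero_mul, zero_div, add_zero, Complex.neg_re]
    have : 0 < Complex.normSq (-b) := Complex.normSq_pos.2 (neg_ne_zero.2 hb0)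
    have h2 : 0 < -b.re := by linarith
    positivity
  have hnorm : ‖(π : ℂ) / -b‖ = 1 / (2 * Real.sqrt (s ^ 2 + 4)) := by
    have h3 : ‖(π : ℂ) / -b‖ ^ 2 = (1 / (2 * Real.sqrt (s ^ 2 + 4))) ^ 2 := by
      have h4 : ((‖(π : ℂ) / -b‖ ^ 2 : ℝ) : ℂ) = (((1 / (4 * (s ^ 2 + 4))) : ℝ) : ℂ) := by
        rw [← Complex.normSq_eq_norm_sq, ← Complex.mul_conj, ← hconj]
        push_cast
        rw [div_mul_div_comm, neg_mul_neg, hbb]
        field_simp
      have h5 : ‖(π : ℂ) / -b‖ ^ 2 = 1 / (4 * (s ^ 2 + 4)) := by exact_mod_cast h4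
      rw [h5, div_pow, mul_pow, Real.sq_sqrt hD.le]; norm_num
    exact (pow_left_inj₀ (norm_nonneg _) (by positivity) two_ne_zero).1 h3
  have hpre : ((π : ℂ) / -b) ^ (1 / 2 : ℂ) * ((π : ℂ) / -b') ^ (1 / 2 : ℂ) =
      ((1 / (2 * Real.sqrt (s ^ 2 + 4)) : ℝ) : ℂ) := by
    rw [hconj, cpow_half_mul_conj hre, hnorm]
  rw [mul_mul_mul_comm, hpre, ← Complex.exp_add, F_eq_exp]
  congr 2
  have e1 : (-(1 / ((s ^ 2 + 4 : ℝ) : ℂ)) * w ^ 2).re = -((w.re ^ 2 - w.im ^ 2) / (s ^ 2 + 4)) := by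
    have : -(1 / ((s ^ 2 + 4 : ℝ) : ℂ)) = ((-(1 / (s ^ 2 + 4)) : ℝ) : ℂ) := by push_cast; rfl
    rw [this, Complex.re_ofReal_mul, sq w, Complex.mul_re]
    ring
  rw [e1]
  have i1 : b⁻¹ = b' / (4 * π ^ 2 * (s ^ 2 + 4)) := by
    rw [← hbb]; field_simp
  have i2 : b'⁻¹ = b / (4 * π ^ 2 * (s ^ 2 + 4)) := by
    rw [← hbb]; field_simp
  rw [div_eq_mul_inv _ (4 * b), div_eq_mul_inv _ (4 * b'), mul_inv, mul_inv, i1, i2, hb, hb']
  push_cast
  field_simp
  linear_combination (π : ℂ) * (2 * (s : ℂ) * ((w.re : ℂ) ^ 2 + (w.im : ℂ) ^ 2) +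
    4 * Complex.I * ((w.re : ℂ) ^ 2 - (w.im : ℂ) ^ 2)) * Complex.I_sq

theorem FT_F_one_dec {s : ℝ} (hs : 0 < s) : Dec (FT (F s 1)) := by
  obtain ⟨C, hC⟩ := F_dec (t := s / (s ^ 2 + 4)) (by positivity) (-(1 / ((s ^ 2 + 4 : ℝ) : ℂ)))
  refine ⟨(1 / (2 * Real.sqrt (s ^ 2 + 4))) * C, fun z => ?_⟩
  rw [FT_F_one hs, norm_mul, Complex.norm_real, Real.norm_of_nonneg (by positivity)]
  calc (1 + ‖z‖) ^ 3 * (1 / (2 * Real.sqrt (s ^ 2 + 4)) *
        ‖F (s / (s ^ 2 + 4)) (-(1 / ((s ^ 2 + 4 : ℝ) : ℂ))) z‖)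
      = (1 / (2 * Real.sqrt (s ^ 2 + 4))) * ((1 + ‖z‖) ^ 3 *
        ‖F (s / (s ^ 2 + 4)) (-(1 / ((s ^ 2 + 4 : ℝ) : ℂ))) z‖) := by ring
    _ ≤ _ := by gcongr; exact hC z

/-- Hecke's theta function -/
noncomputable def Th (t : ℝ) (β : ℂ) : ℂ := ∑' x : O, F t β (toC x)

theorem toC_rt3_sq : toC rt3 ^ 2 = -3 := by
  rw [sq, ← map_mul, PO.rt3_sq, map_neg, map_ofNat]

/-- the functional equation -/
theorem Th_inv {t : ℝ} (ht : 0 < t) {β : ℂ} (hβ : β ≠ 0) :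
    Th t β = ((1 / Real.sqrt (3 * (t ^ 2 + 4 * ‖β‖ ^ 2)) : ℝ) : ℂ) *
      Th (t / (3 * (t ^ 2 + 4 * ‖β‖ ^ 2))) (conj β / ((3 * (t ^ 2 + 4 * ‖β‖ ^ 2) : ℝ) : ℂ)) := by
  obtain ⟨q, hq⟩ := IsAlgClosed.exists_eq_mul_self β
  have hq0 : q ≠ 0 := by rintro rfl; exact hβ (by rw [hq, mul_zero])
  have hb : 0 < ‖β‖ := norm_pos_iff.2 hβ
  have hqn : ‖q‖ ^ 2 = ‖β‖ := by rw [hq, norm_mul, sq]
  obtain ⟨s, hs⟩ : ∃ s : ℝ, s = t / ‖β‖ := ⟨_, rfl⟩
  have hs0 : 0 < s := hs ▸ div_pos ht hb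
  have hP := PO.poisson_O (F_continuous s 1) (F_dec hs0 1) (FT_F_one_dec hs0) 0 hq0
  have e1 : ∀ x : O, F s 1 (0 + q * toC x) = F t β (toC x) := by
    intro x
    rw [zero_add, F, F, Ga, Ga, norm_mul, mul_pow, hqn, hq, ← hq]
    congr 2
    · congr 2
      rw [hs]; field_simp
    · rw [hq]; ring
  simp only [e1] at hP
  rw [Th, ← hP.tsum_eq, Th, ← tsum_mul_left]
  congr 1
  funext h
  rw [zero_mul, PO.eT_zero, one_mul, FT_F_one hs0]
  have hD : (0 : ℝ) < s ^ 2 + 4 := by positivity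
  have hΔ : t ^ 2 + 4 * ‖β‖ ^ 2 = (s ^ 2 + 4) * ‖β‖ ^ 2 := by
    rw [hs]; field_simp
  have e2 : F (s / (s ^ 2 + 4)) (-(1 / ((s ^ 2 + 4 : ℝ) : ℂ))) (toC h / (toC rt3 * q)) =
      F (t / (3 * (t ^ 2 + 4 * ‖β‖ ^ 2))) (conj β / ((3 * (t ^ 2 + 4 * ‖β‖ ^ 2) : ℝ) : ℂ))
        (toC h) := by
    rw [F, F, Ga, Ga, hΔ]
    congr 2
    · congr 2
      rw [norm_div, norm_mul, div_pow, mul_pow, hqn, PO.norm_toC_rt3, sqrt3_sq, hs]
      field_simp
    · rw [div_pow, mul_pow, toC_rt3_sq, sq q, ← hq]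
      have h1 : ((‖β‖ : ℝ) : ℂ) ^ 2 = β * conj β := by
        rw [Complex.mul_conj, Complex.normSq_eq_norm_sq]; push_cast; rfl
      have h2 : conj β ≠ 0 := by simpa using hβ
      have h3 : ((s : ℂ) ^ 2 + 4) ≠ 0 := by exact_mod_cast hD.ne'
      push_cast
      rw [h1]
      field_simp
  rw [e2, ← mul_assoc]
  congr 1
  have h4 : Real.sqrt (3 * (t ^ 2 + 4 * ‖β‖ ^ 2)) = Real.sqrt 3 * Real.sqrt (s ^ 2 + 4) * ‖β‖ := by
    rw [hΔ, Real.sqrt_mul (by norm_num), Real.sqrt_mul hD.le, Real.sqrt_sq hb.le, mul_assoc]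
  have h5 : ((‖q‖ : ℝ) : ℂ) ^ 2 = (‖β‖ : ℝ) := by exact_mod_cast hqn
  rw [h4, h5]
  have h6 : ((Real.sqrt 3 : ℝ) : ℂ) ≠ 0 := by exact_mod_cast sqrt3_pos.ne'
  have h7 : ((Real.sqrt (s ^ 2 + 4) : ℝ) : ℂ) ≠ 0 := by
    exact_mod_cast (Real.sqrt_pos.2 hD).ne'
  have h8 : ((‖β‖ : ℝ) : ℂ) ≠ 0 := by exact_mod_cast hb.ne'
  push_cast
  field_simp

theorem summable_Ga {t : ℝ} (ht : 0 < t) {q : ℂ} (hq : q ≠ 0) :
    Summable fun x : O => Ga t (q * toC x) := by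
  have h := ((F_dec ht 0).summable 0 hq).norm
  simpa only [zero_add, norm_F] using h

theorem Ga_mono {t t' : ℝ} (h : t ≤ t') (z : ℂ) : Ga t' z ≤ Ga t z := by
  unfold Ga
  have := Real.pi_pos
  gcongr

theorem Ga_zero (t : ℝ) : Ga t 0 = 1 := by simp [Ga]

theorem Ga_tendsto {α : Type*} {l : Filter α} {T : α → ℝ} (hT : Tendsto T l atTop) {z : ℂ}
    (hz : z ≠ 0) : Tendsto (fun a => Ga (T a) z) l (𝓝 0) := by
  unfold Ga
  refine Real.tendsto_exp_atBot.comp (tendsto_neg_atTop_atBot.comp ?_)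
  have h1 : 0 < 2 * π * ‖z‖ ^ 2 := by
    have := Real.pi_pos
    have := norm_pos_iff.2 hz
    positivity
  refine (hT.const_mul_atTop h1).congr fun a => ?_
  ring

/-- weighted Gaussian sums are dominated by the term at the origin -/
theorem tendsto_tsum_Ga {α : Type*} {l : Filter α} {T : α → ℝ} (hT : Tendsto T l atTop) {q : ℂ}
    (hq : q ≠ 0) {c : α → O → ℂ} {M : ℝ} (hc : ∀ a x, ‖c a x‖ ≤ M) {c0 : ℂ}
    (h0 : ∀ a, c a 0 = c0) :
    Tendsto (fun a => ∑' x : O, c a x * (Ga (T a) (q * toC x) : ℂ)) l (𝓝 c0) := by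
  classical
  have hM : ∀ a : α, 0 ≤ M := fun a => (norm_nonneg _).trans (hc a 0)
  have key := tendsto_tsum_of_dominated_convergence (𝓕 := l)
    (f := fun a (x : O) => c a x * (Ga (T a) (q * toC x) : ℂ))
    (g := fun x : O => if x = 0 then c0 else 0) (bound := fun x : O => M * Ga 1 (q * toC x))
    ((summable_Ga one_pos hq).mul_left M) ?_ ?_
  · rwa [tsum_ite_eq] at key
  · intro x
    split_ifs with hx
    · subst hx
      simp only [h0, map_zero, mul_zero, Ga_zero, Complex.ofReal_one, mul_one]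
      exact tendsto_const_nhds
    · have hz : q * toC x ≠ 0 := mul_ne_zero hq (by simpa using hx)
      rw [tendsto_zero_iff_norm_tendsto_zero]
      have h1 := (Ga_tendsto hT hz).const_mul M
      rw [mul_zero] at h1
      refine squeeze_zero (fun a => norm_nonneg _) (fun a => ?_) h1
      rw [norm_mul, Complex.norm_real, Real.norm_of_nonneg (Ga_pos _ _).le]
      exact mul_le_mul_of_nonneg_right (hc a x) (Ga_pos _ _).le
  · filter_upwards [hT.eventually_ge_atTop 1] with a ha x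
    rw [norm_mul, Complex.norm_real, Real.norm_of_nonneg (Ga_pos _ _).le]
    exact mul_le_mul (hc a x) (Ga_mono ha _) (Ga_pos _ _).le (hM a)

theorem Th_tendsto {α : Type*} {l : Filter α} {T : α → ℝ} (hT : Tendsto T l atTop) (β : α → ℂ) :
    Tendsto (fun a => Th (T a) (β a)) l (𝓝 1) := by
  have h := tendsto_tsum_Ga hT one_ne_zero (c := fun a x => eT (β a * toC x ^ 2)) (M := 1)
    (fun a x => (PO.norm_eT _).le) (c0 := 1) (fun a => by simp)
  refine h.congr fun a => ?_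
  rw [Th]
  congr 1
  funext x
  rw [one_mul, F, mul_comm]

theorem tendsto_inv_pos : Tendsto (fun t : ℝ => 1 / t) (𝓝[>] 0) atTop := by
  simpa only [one_div] using tendsto_inv_nhdsGT_zero

/-- the main term of a Gaussian sum with a periodic weight -/
theorem tendsto_per {q : O} (hq : q ≠ 0) {ψ : O → ℂ} (hψ : Per q ψ) :
    Tendsto (fun t : ℝ => (t : ℂ) * ∑' x : O, ψ x * (Ga t (toC x) : ℂ)) (𝓝[>] 0)
      (𝓝 (rsum q ψ / (Real.sqrt 3 * N q))) := by
  have nq : NeZero q := ⟨hq⟩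
  have hq' : (1 / (toC rt3 * toC q)) ≠ 0 :=
    one_div_ne_zero (mul_ne_zero PO.toC_rt3_ne_zero (by simpa using hq))
  have hN : (0 : ℝ) < N q := by exact_mod_cast N_pos hq
  have h3 := sqrt3_pos
  have key := tendsto_tsum_Ga tendsto_inv_pos hq'
    (c := fun _ h => PO.GS q (PS.reps q) ψ h / (Real.sqrt 3 * N q))
    (M := (∑ a ∈ PS.reps q, ‖ψ a‖) / (Real.sqrt 3 * N q)) ?_
    (c0 := rsum q ψ / (Real.sqrt 3 * N q)) ?_
  · refine key.congr' ?_
    filter_upwards [self_mem_nhdsWithin] with t ht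
    have ht : 0 < t := ht
    have hA : 0 < 1 / (Real.sqrt 3 * t) := by positivity
    have hP := PO.poisson_per (PS.gau_continuous _) (PS.gau_dec hA) (PS.FT_gau_dec hA) hq
      (PS.isResSys_reps q) (PS.per_iff hψ)
    simp only [gau_eq ht, PS.FT_gau hA, gau_eq' ht] at hP
    rw [← hP.tsum_eq, ← tsum_mul_left]
    congr 1
    funext h
    have e1 : 1 / (toC rt3 * toC q) * toC h = toC h / (toC rt3 * toC q) := by ring
    rw [e1]
    have h6 : ((Real.sqrt 3 : ℝ) : ℂ) ≠ 0 := by exact_mod_cast h3.ne'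
    have h7 : (t : ℂ) ≠ 0 := by exact_mod_cast ht.ne'
    have h8 : ((N q : ℕ) : ℂ) ≠ 0 := by exact_mod_cast hN.ne'
    push_cast
    field_simp
  · intro _ h
    rw [norm_div]
    have e : ‖((Real.sqrt 3 : ℝ) : ℂ) * ((N q : ℕ) : ℂ)‖ = Real.sqrt 3 * N q := by
      rw [norm_mul, Complex.norm_real, Complex.norm_natCast, Real.norm_of_nonneg h3.le]
    rw [e]
    gcongr
    rw [PO.GS]
    refine (norm_sum_le _ _).trans (le_of_eq ?_)
    refine Finset.sum_congr rfl fun a _ => ?_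
    rw [norm_mul, PO.norm_eT, mul_one]
  · intro _
    rw [PS.GS_eq]
    simp only [mul_zero, E_zero, mul_one]

theorem Th_shift (t : ℝ) (β : ℂ) {κ : ℂ} (hκ : ∀ x : O, eT (κ * toC x ^ 2) = 1) :
    Th t (κ + β) = Th t β := by
  rw [Th, Th]
  congr 1
  funext x
  rw [F, F, add_mul, PO.eT_add, hκ, one_mul]

theorem four_sq3_mul (c : O) : toC (4 * sq3 * c) = 4 * toC rt3 * toC c := by
  rw [map_mul, map_mul, map_ofNat]; rfl

theorem E_four_per {c : O} (hc : c ≠ 0) : Per (c * 2) (fun y => E (4 * sq3 * c) (y ^ 2)) := by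
  rintro x y ⟨u, hu⟩
  have h1 : x ^ 2 = y ^ 2 + (4 * c) * (y * u + c * u ^ 2) := by
    have : x = y + c * 2 * u := by rw [← hu]; ring
    rw [this]; ring
  have h2 : 4 * sq3 * c = (4 * c) * sq3 := by ring
  have h4 : (4 : O) * c ≠ 0 := mul_ne_zero (by decide) hc
  simp only [h1]
  rw [E_add, h2, E_mul_cancel h4, E_sq3, mul_one]

/-- **Hecke's evaluation** of the complete quadratic Gauss sum -/
theorem full_gauss {c : O} (hc : c ≠ 0) :
    rsum (c * 2) (fun y => E (4 * sq3 * c) (y ^ 2)) = 2 * (Real.sqrt (N c) : ℝ) := by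
  have hc2 : c * 2 ≠ 0 := mul_ne_zero hc (by decide)
  have hc' : toC c ≠ 0 := by simpa using hc
  have hd := PO.toC_rt3_ne_zero
  have hN : (0 : ℝ) < N c := by exact_mod_cast N_pos hc
  have h3 := sqrt3_pos
  set β : ℂ := 1 / (4 * toC rt3 * toC c) with hβ
  have hβ0 : β ≠ 0 := one_div_ne_zero (mul_ne_zero (mul_ne_zero (by norm_num) hd) hc')
  have hA := tendsto_per hc2 (E_four_per hc)
  have e1 : ∀ t : ℝ, (∑' x : O, E (4 * sq3 * c) (x ^ 2) * (Ga t (toC x) : ℂ)) = Th t β := by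
    intro t
    rw [Th]
    congr 1
    funext x
    rw [F, mul_comm, E, four_sq3_mul, PO.eT, map_pow, hβ]
    congr 3
    ring
  simp only [e1] at hA
  set d : ℝ := 1 / (12 * N c) with hdd
  have hd0 : 0 < d := by positivity
  have hnβ : 4 * ‖β‖ ^ 2 = d := by
    rw [hβ, norm_div, norm_mul, norm_mul, PO.norm_toC_rt3, div_pow, mul_pow, mul_pow, sqrt3_sq,
      ← N_eq_sq_norm, hdd]
    simp only [norm_one, Complex.norm_ofNat]
    field_simp
    norm_num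
  set κ : ℂ := toC c * toC rt3 / 3 with hκ
  have hκ0 : κ ≠ 0 := div_ne_zero (mul_ne_zero hc' hd) (by norm_num)
  have hκ1 : ∀ x : O, eT (κ * toC x ^ 2) = 1 := by
    intro x
    have h1 : κ * toC x ^ 2 = toC (-(c * x ^ 2)) / toC rt3 := by
      rw [hκ, map_neg, map_mul, map_pow]
      field_simp
      linear_combination (toC x ^ 2) * toC_rt3_sq
    rw [h1, PO.eT, PO.TrC_div_rt3, e_int]
  have hnκ : ‖κ‖ ^ 2 = N c / 3 := by
    rw [hκ, norm_div, norm_mul, PO.norm_toC_rt3, div_pow, mul_pow, sqrt3_sq, ← N_eq_sq_norm]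
    simp only [Complex.norm_ofNat]
    ring
  have hconj : conj β = 3 * d * κ := by
    have h1 : β * conj β = ((d / 4 : ℝ) : ℂ) := by
      rw [Complex.mul_conj, Complex.normSq_eq_norm_sq, ← hnβ]; push_cast; ring
    have h2 : β * κ = 1 / 12 := by
      rw [hβ, hκ]; field_simp; norm_num
    apply mul_left_cancel₀ hβ0
    rw [h1]
    push_cast
    linear_combination (-3 * (d : ℂ)) * h2
  have hB : ∀ t : ℝ, 0 < t → ∃ β' : ℂ, (t : ℂ) * Th t β = (Real.sqrt d : ℝ) * Th (d * (1 / t)) β' := by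
    intro t ht
    have hΔ : 0 < t ^ 2 + d := by positivity
    have hΔc : ((t : ℂ) ^ 2 + d) ≠ 0 := by exact_mod_cast hΔ.ne'
    have htc : (t : ℂ) ≠ 0 := by exact_mod_cast ht.ne'
    set β2 : ℂ := -(((t ^ 2 / (t ^ 2 + d) : ℝ) : ℂ) * κ) with hβ2
    have hβ20 : β2 ≠ 0 := by
      rw [hβ2, neg_ne_zero]
      exact mul_ne_zero (by exact_mod_cast (by positivity : 0 < t ^ 2 / (t ^ 2 + d)).ne') hκ0
    have s1 : conj β / ((3 * (t ^ 2 + d) : ℝ) : ℂ) = κ + β2 := by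
      rw [hconj, hβ2]
      push_cast
      field_simp
      ring
    have ht1 : 0 < t / (3 * (t ^ 2 + d)) := by positivity
    have s2 : (t / (3 * (t ^ 2 + d))) ^ 2 + 4 * ‖β2‖ ^ 2 = t ^ 2 / (9 * (t ^ 2 + d) * d) := by
      rw [hβ2, norm_neg, norm_mul, mul_pow, hnκ, Complex.norm_real, Real.norm_eq_abs, sq_abs]
      have : (N c : ℝ) = 1 / (12 * d) := by rw [hdd]; field_simp
      rw [this]
      field_simp
      ring
    have h1 := Th_inv ht hβ0
    rw [hnβ, s1, Th_shift _ _ hκ1, Th_inv ht1 hβ20, s2] at h1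
    refine ⟨conj β2 / ((3 * (t ^ 2 / (9 * (t ^ 2 + d) * d)) : ℝ) : ℂ), ?_⟩
    · rw [h1]
      have s3 : t / (3 * (t ^ 2 + d)) / (3 * (t ^ 2 / (9 * (t ^ 2 + d) * d))) = d * (1 / t) := by
        field_simp
        norm_num
      rw [s3, ← mul_assoc, ← mul_assoc]
      congr 1
      have s4 : t * (1 / Real.sqrt (3 * (t ^ 2 + d))) *
          (1 / Real.sqrt (3 * (t ^ 2 / (9 * (t ^ 2 + d) * d)))) = Real.sqrt d := by
        have s5 : Real.sqrt (3 * (t ^ 2 + d)) * Real.sqrt (3 * (t ^ 2 / (9 * (t ^ 2 + d) * d))) =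
            t / Real.sqrt d := by
          rw [← Real.sqrt_mul (by positivity)]
          have : 3 * (t ^ 2 + d) * (3 * (t ^ 2 / (9 * (t ^ 2 + d) * d))) = t ^ 2 / d := by
            field_simp
            norm_num
          rw [this, Real.sqrt_div (by positivity), Real.sqrt_sq ht.le]
        rw [mul_assoc, one_div_mul_one_div, s5]
        field_simp
      exact_mod_cast s4
  choose! β' hβ' using hB
  have hC := (Th_tendsto (tendsto_inv_pos.const_mul_atTop hd0) β').const_mul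
    ((Real.sqrt d : ℝ) : ℂ)
  have hC' : Tendsto (fun t : ℝ => (t : ℂ) * Th t β) (𝓝[>] 0) (𝓝 ((Real.sqrt d : ℝ) * 1)) := by
    refine hC.congr' ?_
    filter_upwards [self_mem_nhdsWithin] with t ht
    exact (hβ' t ht).symm
  have hE := tendsto_nhds_unique hA hC'
  have h6 : ((Real.sqrt 3 : ℝ) : ℂ) * ((N (c * 2) : ℕ) : ℂ) ≠ 0 := by
    have : (0 : ℝ) < N (c * 2) := by exact_mod_cast N_pos hc2
    exact mul_ne_zero (by exact_mod_cast h3.ne') (by exact_mod_cast this.ne')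
  rw [div_eq_iff h6, mul_one] at hE
  rw [hE, N_mul, show N (2 : O) = 4 by decide]
  have h7 : Real.sqrt d * (Real.sqrt 3 * (N c * 4)) = 2 * Real.sqrt (N c) := by
    have h8 : Real.sqrt d = 1 / (2 * Real.sqrt 3 * Real.sqrt (N c)) := by
      rw [hdd, Real.sqrt_div zero_le_one, Real.sqrt_one, Real.sqrt_mul (by norm_num),
        show (12 : ℝ) = 2 ^ 2 * 3 by norm_num, Real.sqrt_mul (by norm_num),
        Real.sqrt_sq (by norm_num)]
    have h9 : Real.sqrt (N c) ^ 2 = N c := Real.sq_sqrt hN.le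
    have h10 : 0 < Real.sqrt (N c) := Real.sqrt_pos.2 hN
    rw [h8]
    field_simp
    linarith
  exact_mod_cast h7

end Vale.Agent.P026Z.Sym
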