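import Vale.Agent.P026Z.Sym.Hil
import Vale.Agent.P026Z.Sym.Theta

/-!
P026, block SYM: the quadratic Gauss sums on `O` with their sign, and quadratic reciprocity.
-/

namespace Vale.Agent.P026Z.Sym

open Vale.Agent.P006 Vale.Agent.P006.V1
open scoped ComplexConjugate

/-! ### Sums over residue classes -/

theorem rsum_add (m : O) [NeZero m] (f g : O → ℂ) :
    rsum m (fun x => f x + g x) = rsum m f + rsum m g := by
  rw [rsum_eq_sum, rsum_eq_sum, rsum_eq_sum, Finset.sum_add_distrib]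

theorem rsum_shift {m : O} [NeZero m] {f : O → ℂ} (hf : Per m f) (t : O) :
    rsum m (fun x => f (x + t)) = rsum m f := by
  rw [rsum_eq_sum, rsum_eq_sum]
  refine Fintype.sum_equiv (Equiv.addRight (rs m t)) _ _ fun x => ?_
  apply hf
  rw [← rs_eq, map_add, rs_out, rs_out]
  rfl

theorem rsum_unit {u : O} (hu : IsUnit u) {f : O → ℂ} (hf : Per u f) : rsum u f = f 0 := by
  have : NeZero u := ⟨hu.ne_zero⟩
  exact rsum_single u hf 0 fun x hx => absurd (hu.dvd) hx

theorem rsum_two {f : O → ℂ} (hf : Per 2 f) : rsum 2 f = f 0 + f 1 + f om + f (1 + om) := by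
  classical
  have : NeZero (2 : O) := ⟨by decide⟩
  rw [rsum_eq_sum]
  have h1 : (Finset.univ : Finset (Rs 2)) = {rs 2 0, rs 2 1, rs 2 om, rs 2 (1 + om)} := by
    ext x
    obtain ⟨x, rfl⟩ := rs_surj 2 x
    simp only [Finset.mem_univ, Finset.mem_insert, Finset.mem_singleton, rs_eq, two_dvd_iff,
      true_iff]
    simp only [om, QuadraticAlgebra.re_sub, QuadraticAlgebra.im_sub, QuadraticAlgebra.re_add,
      QuadraticAlgebra.im_add, QuadraticAlgebra.re_zero, QuadraticAlgebra.im_zero, re_one', im_one']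
    omega
  have n1 : rs 2 0 ≠ rs 2 1 := by rw [Ne, rs_eq, two_dvd_iff]; decide
  have n2 : rs 2 0 ≠ rs 2 om := by rw [Ne, rs_eq, two_dvd_iff]; decide
  have n3 : rs 2 0 ≠ rs 2 (1 + om) := by rw [Ne, rs_eq, two_dvd_iff]; decide
  have n4 : rs 2 1 ≠ rs 2 om := by rw [Ne, rs_eq, two_dvd_iff]; decide
  have n5 : rs 2 1 ≠ rs 2 (1 + om) := by rw [Ne, rs_eq, two_dvd_iff]; decide
  have n6 : rs 2 om ≠ rs 2 (1 + om) := by rw [Ne, rs_eq, two_dvd_iff]; decide
  rw [h1, Finset.sum_insert (by simp only [Finset.mem_insert, Finset.mem_singleton]; tauto),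
    Finset.sum_insert (by simp only [Finset.mem_insert, Finset.mem_singleton]; tauto),
    Finset.sum_insert (by simp only [Finset.mem_singleton]; tauto), Finset.sum_singleton,
    hf.out, hf.out, hf.out, hf.out]
  ring

/-- orthogonality for the primitive additive character `x ↦ e(Tr(x/(√-3 c)))` of `O/c` -/
theorem rsum_E3_eq_zero {c k : O} (hc : c ≠ 0) (hk : ¬ c ∣ k) :
    rsum c (fun x => E (sq3 * c) (x * k)) = 0 := by
  have : NeZero c := ⟨hc⟩
  have h1 : ¬ ∀ t : O, psi (sq3 * c) (rs (sq3 * c) (k * t)) = 1 := by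
    rw [psi_trivial_iff (mul_ne_zero sq3_ne_zero hc), sq3_eq]
    intro h
    apply hk
    have h2 : lam * (om * c) ∣ lam * k := by
      rwa [show lam * (om * c) = om * lam * c by ring]
    exact (dvd_mul_left c om).trans ((mul_dvd_mul_iff_left prime_lam.ne_zero).1 h2)
  push Not at h1
  obtain ⟨t, ht⟩ := h1
  have h2 := rsum_shift (E_per_sq3 hc k) t
  have h3 : ∀ x : O, E (sq3 * c) ((x + t) * k) = E (sq3 * c) (k * t) * E (sq3 * c) (x * k) := by
    intro x
    rw [← E_add]; congr 1; ring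
  simp only [h3, rsum_const_mul] at h2
  rw [← E_eq_psi] at ht
  have h4 : (E (sq3 * c) (k * t) - 1) * rsum c (fun x => E (sq3 * c) (x * k)) = 0 := by
    linear_combination h2
  exact (mul_eq_zero.1 h4).resolve_left (sub_ne_zero.2 ht)

/-- the two-factor formula for twisted complete sums with the dual lattice -/
theorem rsum_mul_E3 {a b : O} (ha : a ≠ 0) (hb : b ≠ 0) (hab : IsCoprime a b) {f g : O → ℂ}
    (hf : Per a f) (hg : Per b g) (k : O) :
    rsum (a * b) (fun x => f x * g x * E (sq3 * (a * b)) (x * k)) =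
      rsum a (fun x => f (b * x) * E (sq3 * a) (x * k)) *
        rsum b (fun y => g (a * y) * E (sq3 * b) (y * k)) := by
  have : NeZero a := ⟨ha⟩
  have : NeZero b := ⟨hb⟩
  have hper : Per (a * b) (fun x => f x * g x * E (sq3 * (a * b)) (x * k)) :=
    ((hf.mono (dvd_mul_right a b)).mul (hg.mono (dvd_mul_left b a))).mul
      (E_per_sq3 (mul_ne_zero ha hb) k)
  rw [rsum_crt ha hb hab hper]
  have h1 : ∀ x y : O, f (b * x + a * y) * g (b * x + a * y) *
      E (sq3 * (a * b)) ((b * x + a * y) * k) =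
      (f (b * x) * E (sq3 * a) (x * k)) * (g (a * y) * E (sq3 * b) (y * k)) := by
    intro x y
    have e1 : f (b * x + a * y) = f (b * x) := hf _ _ (by
      rw [add_sub_cancel_left]; exact dvd_mul_right a y)
    have e2 : g (b * x + a * y) = g (a * y) := hg _ _ (by
      rw [add_sub_cancel_right]; exact dvd_mul_right b x)
    have e3 : (b * x + a * y) * k = b * (x * k) + a * (y * k) := by ring
    have e4 : E (sq3 * (a * b)) (b * (x * k)) = E (sq3 * a) (x * k) := by
      rw [show sq3 * (a * b) = b * (sq3 * a) by ring, E_mul_cancel hb]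
    have e5 : E (sq3 * (a * b)) (a * (y * k)) = E (sq3 * b) (y * k) := by
      rw [show sq3 * (a * b) = a * (sq3 * b) by ring, E_mul_cancel ha]
    rw [e1, e2, e3, E_add, e4, e5]
    ring
  simp only [h1, rsum_const_mul]
  rw [rsum_eq_sum a, rsum_eq_sum a, Finset.sum_mul]

/-- counting square roots modulo an odd prime -/
theorem rsum_sq_comp {π : O} (hπ : Prime π) (h2 : IsCoprime π 2) {f : O → ℂ} (hf : Per π f) :
    rsum π (fun x => f (x ^ 2)) = rsum π (fun t => (1 + rho π t) * f t) := by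
  classical
  have : Fact (Prime π) := ⟨hπ⟩
  rw [rsum_eq_sum, rsum_eq_sum]
  have h1 : ∀ x : Rs π, f (Quotient.out x ^ 2) = f (Quotient.out (x ^ 2)) := by
    intro x
    apply hf
    rw [← rs_eq, map_pow, rs_out, rs_out]
  simp only [h1]
  rw [← Finset.sum_fiberwise (s := Finset.univ) (g := fun u : Rs π => u ^ 2)]
  refine Finset.sum_congr rfl fun t _ => ?_
  have h3 : ∑ u ∈ Finset.univ.filter (fun u : Rs π => u ^ 2 = t), f (Quotient.out (u ^ 2)) =
      ∑ u ∈ Finset.univ.filter (fun u : Rs π => u ^ 2 = t), f (Quotient.out t) := by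
    refine Finset.sum_congr rfl fun u hu => ?_
    rw [(Finset.mem_filter.1 hu).2]
  rw [h3, Finset.sum_const, nsmul_eq_mul]
  congr 1
  have h4 := quadraticChar_card_sqrts (ringChar_ne_two h2) t
  have h5 : {x : Rs π | x ^ 2 = t}.toFinset = Finset.univ.filter (fun u : Rs π => u ^ 2 = t) := by
    ext x; simp
  rw [h5] at h4
  rw [rho, q2_eq_quadraticChar, rs_out]
  have h6 := congrArg (fun m : ℤ => (m : ℂ)) h4
  simp only [Int.cast_natCast, Int.cast_add, Int.cast_one] at h6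
  rw [h6, add_comm]

/-! ### The quadratic Gauss sums -/

/-- `∑_{x mod c} e(Tr(a x²/(√-3 c)))` -/
noncomputable def Gq (a c : O) : ℂ := rsum c (fun x => E (sq3 * c) (x ^ 2 * a))

/-- `∑_{x mod c} (x/c)_2 e(Tr(h x/(√-3 c)))` -/
noncomputable def Gr (c h : O) : ℂ := rsum c (fun x => rho c x * E (sq3 * c) (x * h))

theorem Gq_per {c : O} (hc : c ≠ 0) (a : O) : Per c (fun x => E (sq3 * c) (x ^ 2 * a)) :=
  fun x y h => E_per_sq3 hc a (x ^ 2) (y ^ 2) (h.trans (sub_dvd_pow_sub_pow x y 2))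

theorem E_four_sq3 (z : O) : E (4 * sq3) z = Complex.I ^ z.im := by
  have h1 : TrC (toC z / toC (4 * sq3)) = (z.im : ℝ) / 4 := by
    rw [← PO.TrC_div_rt3, map_mul, map_ofNat]
    have : toC z / (4 * toC sq3) = ((1 / 4 : ℝ) : ℂ) * (toC z / toC PO.rt3) := by
      rw [PS.rt3_eq]; push_cast; ring
    rw [this, PO.TrC_ofReal_mul]; ring
  have h2 : Complex.I ^ z.im = Complex.exp (z.im * (Real.pi / 2 * Complex.I)) := by
    rw [Complex.exp_int_mul, Complex.exp_pi_div_two_mul_I]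
  rw [E, h1, e, h2]
  congr 1
  push_cast
  ring

/-- **The quadratic Gauss sum with its sign.** -/
theorem Gq_one {c : O} (hc : IsCoprime c 2) : Gq 1 c = eps c * (Real.sqrt (N c) : ℝ) := by
  have hc0 := odd_ne_zero hc
  have : NeZero c := ⟨hc0⟩
  have : NeZero (2 : O) := ⟨by decide⟩
  have h := full_gauss hc0
  rw [rsum_crt hc0 (by decide) hc (E_four_per hc0)] at h
  have h1 : ∀ x y : O, E (4 * sq3 * c) ((2 * x + c * y) ^ 2) =
      E (sq3 * c) (x ^ 2 * 1) * E (4 * sq3) (y ^ 2 * c) := by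
    intro x y
    have e1 : (2 * x + c * y) ^ 2 = 4 * (x ^ 2 * 1) + (4 * c) * (x * y) + c * (y ^ 2 * c) := by ring
    have e2 : E (4 * sq3 * c) (4 * (x ^ 2 * 1)) = E (sq3 * c) (x ^ 2 * 1) := by
      rw [mul_assoc, E_mul_cancel (by decide)]
    have e3 : E (4 * sq3 * c) ((4 * c) * (x * y)) = 1 := by
      rw [show 4 * sq3 * c = (4 * c) * sq3 by ring, E_mul_cancel (mul_ne_zero (by decide) hc0),
        E_sq3]
    have e4 : E (4 * sq3 * c) (c * (y ^ 2 * c)) = E (4 * sq3) (y ^ 2 * c) := by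
      rw [mul_comm (4 * sq3) c, E_mul_cancel hc0]
    rw [e1, E_add, E_add, e2, e3, e4, mul_one]
  have hper : Per 2 (fun y => E (4 * sq3) (y ^ 2 * c)) := by
    rintro x y ⟨u, hu⟩
    have e1 : x ^ 2 * c = y ^ 2 * c + 4 * ((y * u + u ^ 2) * c) := by
      have : x = y + 2 * u := by rw [← hu]; ring
      rw [this]; ring
    simp only [e1]
    rw [E_add, E_mul_cancel (by decide), E_sq3, mul_one]
  have h2 : rsum 2 (fun y => E (4 * sq3) (y ^ 2 * c)) =
      1 + Complex.I ^ c.im + Complex.I ^ (-c.re) + Complex.I ^ (c.re - c.im) := by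
    rw [rsum_two hper]
    simp only [E_four_sq3]
    have a1 : ((0 : O) ^ 2 * c).im = 0 := by simp
    have a2 : ((1 : O) ^ 2 * c).im = c.im := by simp
    have a3 : (om ^ 2 * c).im = -c.re := by
      rw [show om ^ 2 = ⟨-1, -1⟩ by decide]; simp
    have a4 : ((1 + om) ^ 2 * c).im = c.re - c.im := by
      rw [show (1 + om) ^ 2 = ⟨0, 1⟩ by decide]; simp; ring
    rw [a1, a2, a3, a4, zpow_zero]
  simp only [h1, rsum_const_mul, h2] at h
  have h3 : rsum c (fun x => E (sq3 * c) (x ^ 2 * 1) *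
      (1 + Complex.I ^ c.im + Complex.I ^ (-c.re) + Complex.I ^ (c.re - c.im))) =
      (1 + Complex.I ^ c.im + Complex.I ^ (-c.re) + Complex.I ^ (c.re - c.im)) * Gq 1 c := by
    rw [Gq, ← rsum_const_mul]
    exact rsum_congr fun x => mul_comm _ _
  rw [h3] at h
  have h4 := eps_mul_H hc
  linear_combination (eps c / 2) * h - (Gq 1 c / 2) * h4

theorem Gq_mul {a b : O} (ha : a ≠ 0) (hb : b ≠ 0) (hab : IsCoprime a b) :
    Gq 1 (a * b) = Gq b a * Gq a b := by
  have : NeZero a := ⟨ha⟩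
  have : NeZero b := ⟨hb⟩
  rw [Gq, rsum_crt ha hb hab (Gq_per (mul_ne_zero ha hb) 1)]
  have h1 : ∀ x y : O, E (sq3 * (a * b)) ((b * x + a * y) ^ 2 * 1) =
      E (sq3 * a) (x ^ 2 * b) * E (sq3 * b) (y ^ 2 * a) := by
    intro x y
    have e1 : (b * x + a * y) ^ 2 * 1 = b * (x ^ 2 * b) + (a * b) * (2 * x * y) + a * (y ^ 2 * a) := by
      ring
    have e2 : E (sq3 * (a * b)) (b * (x ^ 2 * b)) = E (sq3 * a) (x ^ 2 * b) := by
      rw [show sq3 * (a * b) = b * (sq3 * a) by ring, E_mul_cancel hb]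
    have e3 : E (sq3 * (a * b)) ((a * b) * (2 * x * y)) = 1 := by
      rw [mul_comm sq3, E_mul_cancel (mul_ne_zero ha hb), E_sq3]
    have e4 : E (sq3 * (a * b)) (a * (y ^ 2 * a)) = E (sq3 * b) (y ^ 2 * a) := by
      rw [show sq3 * (a * b) = a * (sq3 * b) by ring, E_mul_cancel ha]
    rw [e1, E_add, E_add, e2, e3, e4, mul_one]
  simp only [h1, rsum_const_mul]
  rw [Gq, Gq, rsum_eq_sum a, rsum_eq_sum a, Finset.sum_mul]

theorem Gr_twist {c h : O} (hc : c ≠ 0) (hh : IsCoprime h c) : Gr c h = rho c h * Gr c 1 := by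
  have : NeZero c := ⟨hc⟩
  have h1 := rsum_comp_mul hh ((rho_per c).mul (E_per_sq3 hc 1))
  rw [Gr, Gr, ← h1, ← rsum_const_mul]
  refine rsum_congr fun x => ?_
  rw [rho_mul, ← mul_assoc, ← mul_assoc, rho_mul_self, cop_of_coprime hh, one_mul, mul_one,
    mul_comm h x]

theorem Gq_prime {π a : O} (hπ : Prime π) (h2 : IsCoprime π 2) (ha : ¬ π ∣ a) :
    Gq a π = Gr π a := by
  have : NeZero π := ⟨hπ.ne_zero⟩
  rw [Gq, rsum_sq_comp hπ h2 (E_per_sq3 hπ.ne_zero a)]
  simp only [add_mul, one_mul]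
  rw [rsum_add, rsum_E3_eq_zero hπ.ne_zero ha, zero_add, Gr]

theorem Gr_prime_one {π : O} (hπ : Prime π) (h2 : IsCoprime π 2) :
    Gr π 1 = eps π * (Real.sqrt (N π) : ℝ) := by
  rw [← Gq_prime hπ h2 hπ.not_dvd_one, Gq_one h2]

/-- the moduli for which the twisting formula is known directly -/
def Tw (c : O) : Prop := ∀ a : O, IsCoprime a c → Gq a c = rho c a * Gq 1 c

theorem tw_unit {u : O} (hu : IsUnit u) : Tw u := by
  intro a _
  rw [Gq, Gq, rsum_unit hu (Gq_per hu.ne_zero a), rsum_unit hu (Gq_per hu.ne_zero 1),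
    rho_unit_left hu]
  simp

theorem tw_prime {π : O} (hπ : Prime π) (h2 : IsCoprime π 2) : Tw π := by
  intro a ha
  rw [Gq_prime hπ h2 (hπ.coprime_iff_not_dvd.1 ha.symm), Gq_prime hπ h2 hπ.not_dvd_one,
    Gr_twist hπ.ne_zero ha]

theorem sqrt_N_ne_zero {c : O} (hc : c ≠ 0) : ((Real.sqrt (N c) : ℝ) : ℂ) ≠ 0 := by
  have : (0 : ℝ) < N c := by exact_mod_cast N_pos hc
  exact_mod_cast (Real.sqrt_pos.2 this).ne'

theorem sqrt_N_mul' (a b : O) : ((Real.sqrt (N (a * b)) : ℝ) : ℂ) =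
    (Real.sqrt (N a) : ℝ) * (Real.sqrt (N b) : ℝ) := by
  rw [N_mul]
  push_cast
  rw [Real.sqrt_mul (Nat.cast_nonneg _)]
  push_cast
  rfl

theorem recip_base {a b : O} (ha : IsCoprime a 2) (hb : IsCoprime b 2) (hab : IsCoprime a b)
    (ta : Tw a) (tb : Tw b) : q2 a b * q2 b a = hil a b := by
  have ha0 := odd_ne_zero ha
  have hb0 := odd_ne_zero hb
  have h := Gq_mul ha0 hb0 hab
  rw [ta b hab.symm, tb a hab, Gq_one ha, Gq_one hb, Gq_one (ha.mul_left hb), eps_mul ha hb,
    sqrt_N_mul'] at h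
  have h1 : eps a * eps b * ((Real.sqrt (N a) : ℝ) : ℂ) * ((Real.sqrt (N b) : ℝ) : ℂ) ≠ 0 :=
    mul_ne_zero (mul_ne_zero (mul_ne_zero (eps_ne_zero a) (eps_ne_zero b)) (sqrt_N_ne_zero ha0))
      (sqrt_N_ne_zero hb0)
  have h2 : rho b a * rho a b = (hil a b : ℂ) := by
    apply mul_right_cancel₀ h1
    linear_combination -h
  rw [rho, rho] at h2
  exact_mod_cast h2

theorem recip_tw {a : O} (ha : IsCoprime a 2) (ta : Tw a) :
    ∀ b : O, b ≠ 0 → (IsCoprime b 2 → IsCoprime a b → q2 a b * q2 b a = hil a b) := by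
  apply induction_primes
  · intro u hu h2 hab; exact recip_base ha h2 hab ta (tw_unit hu)
  · intro π hπ h2 hab; exact recip_base ha h2 hab ta (tw_prime hπ h2)
  · intro b c hb hc h1 h2 hbc habc
    rw [odd_mul_iff] at hbc
    rw [IsCoprime.mul_right_iff] at habc
    rw [q2_mul_right a hb hc, q2_mul_left, hil_mul_right a hbc.1 hbc.2, ← h1 hbc.1 habc.1,
      ← h2 hbc.2 habc.2]
    ring

/-- **Quadratic reciprocity** in `O` -/
theorem q2_recip {a b : O} (ha : IsCoprime a 2) (hb : IsCoprime b 2) (hab : IsCoprime a b) :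
    q2 a b * q2 b a = hil a b := by
  have key : ∀ a : O, a ≠ 0 → (IsCoprime a 2 → IsCoprime a b → q2 a b * q2 b a = hil a b) := by
    apply induction_primes
    · intro u hu h2 hab; exact recip_tw h2 (tw_unit hu) b (odd_ne_zero hb) hb hab
    · intro π hπ h2 hab; exact recip_tw h2 (tw_prime hπ h2) b (odd_ne_zero hb) hb hab
    · intro a c ha hc h1 h2 hac habc
      rw [odd_mul_iff] at hac
      rw [IsCoprime.mul_left_iff] at habc
      rw [q2_mul_right b ha hc, q2_mul_left, hil_mul_left hac.1 hac.2, ← h1 hac.1 habc.1,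
        ← h2 hac.2 habc.2]
      ring
  exact key a (odd_ne_zero ha) ha hab

/-- quadratic reciprocity, without coprimality -/
theorem q2_recip' {a b : O} (ha : IsCoprime a 2) (hb : IsCoprime b 2) :
    q2 a b = hil a b * q2 b a := by
  by_cases hab : IsCoprime a b
  · rw [← q2_recip ha hb hab, mul_assoc, q2_mul_self hab.symm, mul_one]
  · rw [q2_eq_zero.2 hab, q2_eq_zero.2 (fun h => hab h.symm), mul_zero]

theorem rho_recip {a b : O} (ha : IsCoprime a 2) (hb : IsCoprime b 2) :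
    rho a b = hil a b * rho b a := by
  rw [rho, rho, q2_recip' hb ha, hil_comm, Int.cast_mul]

theorem rho_mul_rho {a b : O} (ha : IsCoprime a 2) (hb : IsCoprime b 2) (hab : IsCoprime a b) :
    rho a b * rho b a = hil a b := by
  rw [rho, rho, ← Int.cast_mul, q2_recip hb ha hab.symm, hil_comm]

/-- **Sextic reciprocity** for primary odd elements -/
theorem x6_recip {a b : O} (ha : Primary a) (hb : Primary b) (ha2 : IsCoprime a 2)
    (hb2 : IsCoprime b 2) : x6 a b = hil a b * x6 b a := by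
  rw [x6, x6, rho_recip ha2 hb2, recip ha hb, mul_assoc]

/-! ### Gauss sums of the quadratic character -/

theorem Gr_mul {a b : O} (ha : a ≠ 0) (hb : b ≠ 0) (hab : IsCoprime a b) (h : O) :
    Gr (a * b) h = rho a b * rho b a * (Gr a h * Gr b h) := by
  have : NeZero a := ⟨ha⟩
  have : NeZero b := ⟨hb⟩
  have h1 := rsum_mul_E3 ha hb hab (rho_per a) (rho_per b) h
  simp only [rho_mul, mul_assoc, rsum_const_mul] at h1
  rw [Gr]
  simp only [rho_mul_left ha hb, mul_assoc]
  rw [h1, Gr, Gr]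
  ring

theorem rsum_rho_prime {π : O} (hπ : Prime π) (h2 : IsCoprime π 2) : rsum π (rho π) = 0 := by
  have : NeZero π := ⟨hπ.ne_zero⟩
  obtain ⟨a, ha, ha1⟩ := exists_q2_eq_neg_one hπ h2
  have h1 := rsum_comp_mul ha (rho_per π)
  have h3 : rho π a = -1 := by rw [rho, ha1]; simp
  simp only [rho_mul, h3, rsum_const_mul] at h1
  linear_combination (-1 / 2 : ℂ) * h1

theorem Gr_prime {π : O} (hπ : Prime π) (h2 : IsCoprime π 2) (h : O) :
    Gr π h = rho π h * eps π * (Real.sqrt (N π) : ℝ) := by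
  by_cases hh : π ∣ h
  · have h1 : rho π h = 0 := rho_eq_zero.2 fun hc => (hπ.coprime_iff_not_dvd.1 hc.symm) hh
    rw [h1, zero_mul, zero_mul, Gr, ← rsum_rho_prime hπ h2]
    refine rsum_congr fun x => ?_
    obtain ⟨k, rfl⟩ := hh
    rw [mul_comm sq3 π, show x * (π * k) = π * (x * k) by ring, E_mul_cancel hπ.ne_zero, E_sq3,
      mul_one]
  · rw [Gr_twist hπ.ne_zero (hπ.coprime_iff_not_dvd.2 hh).symm, Gr_prime_one hπ h2, mul_assoc]

/-- **The Gauss sum of the quadratic character** modulo an odd squarefree `c` -/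
theorem Gr_eq {c : O} (hc : IsCoprime c 2) (hs : Squarefree c) (h : O) :
    Gr c h = rho c h * eps c * (Real.sqrt (N c) : ℝ) := by
  have key : ∀ c : O, c ≠ 0 → (IsCoprime c 2 → Squarefree c →
      Gr c h = rho c h * eps c * (Real.sqrt (N c) : ℝ)) := by
    apply induction_primes
    · intro u hu h2 _
      have h1 := Gq_one h2
      rw [Gq, rsum_unit hu (Gq_per hu.ne_zero 1)] at h1
      rw [Gr, rsum_unit hu ((rho_per u).mul (E_per_sq3 hu.ne_zero h)), rho_unit_left hu,
        rho_unit_left hu, one_mul, one_mul, ← h1]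
      simp
    · intro π hπ h2 _; exact Gr_prime hπ h2 h
    · intro a b ha hb h1 h2 hab hs
      rw [odd_mul_iff] at hab
      rw [squarefree_mul_iff, isRelPrime_iff_isCoprime] at hs
      rw [Gr_mul ha hb hs.1, h1 hab.1 hs.2.1, h2 hab.2 hs.2.2, rho_mul_rho hab.1 hab.2 hs.1,
        eps_mul hab.1 hab.2, rho_mul_left ha hb, sqrt_N_mul']
      ring
  exact key c (odd_ne_zero hc) hc hs

/-- (QG) in unfolded form -/
theorem quad_gauss {c : O} (hc : IsCoprime c 2) (hs : Squarefree c) (h : O) :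
    rsum c (fun x => rho c x * E (sq3 * c) (x * h)) =
      rho c h * eps c * (Real.sqrt (N c) : ℝ) := Gr_eq hc hs h

end Vale.Agent.P026Z.Sym
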