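import Vale.Agent.P026Z.Sym.Supp
import Vale.Agent.P006.H357.Alg

/-!
P026, block SYM: the Hasse-Davenport product relation; the Moebius function times the sextic Gauss
sum is a cubic Gauss sum.
-/

namespace Vale.Agent.P026Z.Sym

open Vale.Agent.P006 Vale.Agent.P006.V1
open scoped ComplexConjugate

section field

variable {K : Type*} [Field K] [Fintype K] [DecidableEq K]

/-- `χ(4) J(χ,χ) = J(ρ,χ)` -/
theorem jacobi_dup (hK : ringChar K ≠ 2) {χ : MulChar K ℂ} (hχ : χ ≠ 1) :
    χ 4 * jacobiSum χ χ = jacobiSum ((quadraticChar K).ringHomComp (Int.castRingHom ℂ)) χ := by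
  have h2 : (2 : K) ≠ 0 := Ring.two_ne_zero hK
  have e1 : χ 4 * jacobiSum χ χ = ∑ y : K, χ (1 - y ^ 2) := by
    rw [jacobiSum, Finset.mul_sum]
    refine Fintype.sum_equiv ((Equiv.mulLeft₀ 2 h2).trans (Equiv.subRight 1)) _ _ fun x => ?_
    rw [← map_mul, ← map_mul]
    congr 1
    simp only [Equiv.trans_apply, Equiv.mulLeft₀_apply, Equiv.subRight_apply]
    ring
  have e2 : ∑ y : K, χ (1 - y ^ 2) = ∑ t : K, ((quadraticChar K t + 1 : ℤ) : ℂ) * χ (1 - t) := by
    rw [← Finset.sum_fiberwise (s := Finset.univ) (g := fun u : K => u ^ 2)]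
    refine Finset.sum_congr rfl fun t _ => ?_
    have h3 : ∑ u ∈ Finset.univ.filter (fun u : K => u ^ 2 = t), χ (1 - u ^ 2) =
        ∑ u ∈ Finset.univ.filter (fun u : K => u ^ 2 = t), χ (1 - t) := by
      refine Finset.sum_congr rfl fun u hu => ?_
      rw [(Finset.mem_filter.1 hu).2]
    rw [h3, Finset.sum_const, nsmul_eq_mul]
    congr 1
    have h4 := quadraticChar_card_sqrts hK t
    have h5 : {x : K | x ^ 2 = t}.toFinset = Finset.univ.filter (fun u : K => u ^ 2 = t) := by
      ext x; simp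
    rw [h5] at h4
    rw [← h4, Int.cast_natCast]
  have e3 : ∑ t : K, χ (1 - t) = 0 := by
    rw [← MulChar.sum_eq_zero_of_ne_one hχ]
    exact Fintype.sum_equiv (Equiv.subLeft 1) _ _ fun x => rfl
  rw [e1, e2, jacobiSum]
  simp only [Int.cast_add, Int.cast_one, add_mul, one_mul, Finset.sum_add_distrib, e3, add_zero]
  rfl

/-- the Hasse-Davenport product relation -/
theorem hasse_davenport (hK : ringChar K ≠ 2) {χ : MulChar K ℂ} (hχ2 : χ * χ ≠ 1)
    {ψ : AddChar K ℂ} (hψ : ψ.IsPrimitive) :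
    χ 4 * (gaussSum χ ψ *
        gaussSum ((quadraticChar K).ringHomComp (Int.castRingHom ℂ) * χ) ψ) =
      gaussSum (χ * χ) ψ * gaussSum ((quadraticChar K).ringHomComp (Int.castRingHom ℂ)) ψ := by
  set ρ := (quadraticChar K).ringHomComp (Int.castRingHom ℂ) with hρ
  have hχ : χ ≠ 1 := by rintro rfl; exact hχ2 (mul_one _)
  have hρ2 : ρ * ρ = 1 := by
    rw [← sq]
    exact ((quadraticChar_isQuadratic K).comp _).sq_eq_one
  have hρχ : ρ * χ ≠ 1 := by
    intro h
    apply hχ2
    calc χ * χ = (ρ * ρ) * (χ * χ) := by rw [hρ2, one_mul]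
      _ = (ρ * χ) * (ρ * χ) := by rw [mul_mul_mul_comm]
      _ = 1 := by rw [h, one_mul]
  have h1 := jacobiSum_mul_nontrivial hχ2 ψ
  have h2 := jacobiSum_mul_nontrivial hρχ ψ
  have h3 := jacobi_dup hK hχ
  rw [← hρ] at h3
  have h0 : gaussSum χ ψ ≠ 0 :=
    gaussSum_ne_zero_of_nontrivial (by exact_mod_cast Fintype.card_ne_zero) hχ hψ
  apply mul_left_cancel₀ h0
  linear_combination (-(χ 4) * gaussSum (ρ * χ) ψ) * h1 +
    (gaussSum (χ * χ) ψ * gaussSum (ρ * χ) ψ) * h3 + gaussSum (χ * χ) ψ * h2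

end field

/-! ### The characters as multiplicative characters of the residue ring -/

/-- the sextic character as a character of `O/n` -/
noncomputable def X6 (n : O) : MulChar (Rs n) ℂ where
  toFun x := x6 n (Quotient.out x)
  map_one' := by
    rw [← map_one (rs n), (x6_per n).out, x6_one_right]
  map_mul' x y := by
    rw [← x6_mul]
    apply x6_per
    rw [← rs_eq, map_mul, rs_out, rs_out, rs_out]
  map_nonunit' x hx := by
    rw [← rs_out x, isUnit_rs_iff] at hx
    exact x6_eq_zero.2 hx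

theorem X6_apply (n : O) (x : Rs n) : X6 n x = x6 n (Quotient.out x) := rfl

theorem X6_rs (n a : O) : X6 n (rs n a) = x6 n a := (x6_per n).out a

theorem chi_apply (n : O) (x : Rs n) : chi n x = ch n (Quotient.out x) := by
  conv_lhs => rw [← rs_out x]
  rfl

theorem X6_mul_self (n : O) : X6 n * X6 n = chi n := by
  apply MulChar.ext'
  intro x
  rw [MulChar.mul_apply, X6_apply, ← sq, x6_sq, chi_apply]

theorem gaussSum_eq_rsum {n : O} [NeZero n] {χ : MulChar (Rs n) ℂ} {f : O → ℂ}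
    (h : ∀ x, χ x = f (Quotient.out x)) :
    gaussSum χ (psi n) = rsum n (fun x => f x * E n (x * 1)) := by
  rw [gaussSum, rsum_eq_sum]
  refine Finset.sum_congr rfl fun x _ => ?_
  rw [h, mul_one, E_eq_psi, rs_out]

/-- Hasse-Davenport for the sextic character of a prime -/
theorem hd_prime {π : O} (hπ : Prime π) (hp : Primary π) (h2 : IsCoprime π 2) :
    x6 π 4 * (rsum π (fun x => x6 π x * E π (x * 1)) * conj (P006.gs 1 π)) =
      P006.gs 1 π * rsum π (fun x => rho π x * E π (x * 1)) := by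
  classical
  have : Fact (Prime π) := ⟨hπ⟩
  have hne : X6 π * X6 π ≠ 1 := by rw [X6_mul_self]; exact chi_ne_one hπ hp.not_lam_dvd
  have h := hasse_davenport (ringChar_ne_two h2) hne
    (psi_isPrimitive hπ.ne_zero hp.isCoprime_lam.symm)
  have hρ : ∀ x : Rs π, (quadraticChar (Rs π)).ringHomComp (Int.castRingHom ℂ) x =
      rho π (Quotient.out x) := by
    intro x
    rw [MulChar.ringHomComp_apply, rho, q2_eq_quadraticChar, rs_out]; rfl
  have h4 : X6 π 4 = x6 π 4 := by rw [← X6_rs, map_ofNat (rs π) 4]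
  have hc : ∀ x : Rs π, ((quadraticChar (Rs π)).ringHomComp (Int.castRingHom ℂ) * X6 π) x =
      (fun a => conj (ch π a)) (Quotient.out x) := by
    intro x
    rw [MulChar.mul_apply, hρ, X6_apply, ← x6_cube, ← pow_succ, x6_pow_four]
  rw [h4, X6_mul_self, gaussSum_eq_rsum (X6_apply π),
    gaussSum_eq_rsum (f := fun a => conj (ch π a)) hc, gaussSum_eq_rsum hρ,
    gaussSum_eq_rsum (chi_apply π)] at h
  rw [← PS.V1_gsc_eq, ← PS.V1_gs_eq]
  exact h

/-! ### The Gauss sum of the sextic character -/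

/-- `∑_{x mod b} (x/b)_6 e(Tr(h x/(√-3 b)))` -/
noncomputable def Gx (b h : O) : ℂ := rsum b (fun x => x6 b x * E (sq3 * b) (x * h))

/-- `conj(n/|n|)` times the normalised cubic Gauss sum -/
noncomputable def gg (n : O) : ℂ := conj (alpha n) * gt 1 n

open Classical in
/-- the cubic symbol `(2√-3 / a)_3` on primary `a` -/
noncomputable def xi (a : O) : ℂ := if Primary a then ch a (2 * sq3) else 0

theorem xi_of_primary {a : O} (ha : Primary a) : xi a = ch a (2 * sq3) := if_pos ha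

theorem norm_xi_le (a : O) : ‖xi a‖ ≤ 1 := by
  unfold xi
  split_ifs
  · exact norm_sym_le _ _
  · simp

theorem primary_congr {a b : O} (h : (3 : O) ∣ a - b) : Primary a ↔ Primary b := by
  constructor
  · intro h1
    have : b - 1 = (a - 1) - (a - b) := by ring
    rw [Primary, this]; exact dvd_sub h1 h
  · intro h1
    have : a - 1 = (b - 1) + (a - b) := by ring
    rw [Primary, this]; exact dvd_add h1 h

theorem xi_per : Per 18 xi := by
  intro a b h
  have h3 : (3 : O) ∣ a - b := Dvd.dvd.trans ⟨6, by norm_num⟩ h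
  by_cases ha : Primary a
  · have hb := (primary_congr h3).1 ha
    have h9 : (9 : O) ∣ a - b := Dvd.dvd.trans ⟨2, by norm_num⟩ h
    have h2 : (-2 : O) ∣ a - b := Dvd.dvd.trans ⟨-9, by norm_num⟩ h
    have e : (2 : O) * sq3 = -2 * (-om) * lam := by decide
    rw [xi_of_primary ha, xi_of_primary hb, ch, ch, e, sym_mul_left, sym_mul_left, sym_mul_left,
      sym_mul_left, recip primary_neg_two ha, recip primary_neg_two hb, sym_periodic h2,
      sym_unit_left_congr isUnit_om.neg ha h9, sym_lam_congr ha h9]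
  · have hb : ¬ Primary b := fun hb => ha ((primary_congr h3).2 hb)
    simp only [xi, ha, hb, if_false]

theorem xi_mul {a b : O} (ha : Primary a) (hb : Primary b) : xi (a * b) = xi a * xi b := by
  rw [xi_of_primary (ha.mul hb), xi_of_primary ha, xi_of_primary hb,
    ch_mul_left ha.ne_zero hb.ne_zero]

theorem norm_gg {n : O} (hn : Primary n) (hs : Squarefree n) : ‖gg n‖ = 1 := by
  rw [gg, norm_mul, Complex.norm_conj, norm_alpha hn.ne_zero, norm_gt hn hs isCoprime_one_left,
    one_mul]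

theorem gg_mul {d n : O} (hd : Primary d) (hn : Primary n) (h : IsCoprime d n) :
    gg (d * n) = gg d * gg n * x6 n (d ^ 4) := by
  rw [gg, gg, gg, gt_mul_primary 1 hd hn h, alpha_mul, x6_pow, x6_pow_four, map_mul, ch]
  ring

@[simp] theorem gg_one : gg 1 = 1 := by simp [gg]

theorem Gx_mul {a b : O} (ha : a ≠ 0) (hb : b ≠ 0) (hab : IsCoprime a b) (h : O) :
    Gx (a * b) h = x6 a b * x6 b a * (Gx a h * Gx b h) := by
  have : NeZero a := ⟨ha⟩
  have : NeZero b := ⟨hb⟩
  have h1 := rsum_mul_E3 ha hb hab (x6_per a) (x6_per b) h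
  simp only [x6_mul, mul_assoc, rsum_const_mul] at h1
  rw [Gx]
  simp only [x6_mul_left ha hb, mul_assoc]
  rw [h1, Gx, Gx]
  ring

theorem Gx_twist {c h : O} (hc : c ≠ 0) (hh : IsCoprime h c) :
    Gx c h = conj (x6 c h) * Gx c 1 := by
  have : NeZero c := ⟨hc⟩
  have h1 := rsum_comp_mul hh ((x6_per c).mul (E_per_sq3 hc 1))
  rw [Gx, Gx, ← h1, ← rsum_const_mul]
  refine rsum_congr fun x => ?_
  rw [x6_mul, ← mul_assoc, ← mul_assoc, conj_x6_mul, cop_of_coprime hh, one_mul, mul_one,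
    mul_comm h x]

theorem rsum_x6_prime {π : O} (hπ : Prime π) (h2 : IsCoprime π 2) : rsum π (x6 π) = 0 := by
  have : NeZero π := ⟨hπ.ne_zero⟩
  obtain ⟨a, ha, ha1⟩ := exists_q2_eq_neg_one hπ h2
  have h1 := rsum_comp_mul ha (x6_per π)
  have h3 : x6 π a ≠ 1 := by
    intro h
    have h4 := x6_cube π a
    rw [h, rho, ha1] at h4
    norm_num at h4
  simp only [x6_mul, rsum_const_mul] at h1
  have h5 : (x6 π a - 1) * rsum π (x6 π) = 0 := by linear_combination h1
  exact (mul_eq_zero.1 h5).resolve_left (sub_ne_zero.2 h3)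

/-- passing from the dual lattice normalisation to the normalisation of `gs` -/
theorem rsum_sq3 {n : O} (hn : Primary n) {f : O → ℂ} (hf : Per n f)
    (hmul : ∀ x, f (sq3 * x) = f sq3 * f x) :
    rsum n (fun x => f x * E (sq3 * n) (x * 1)) = f sq3 * rsum n (fun x => f x * E n (x * 1)) := by
  have : NeZero n := ⟨hn.ne_zero⟩
  rw [← rsum_comp_mul (isCoprime_sq3 hn) (hf.mul (E_per_sq3 hn.ne_zero 1)), ← rsum_const_mul]
  refine rsum_congr fun x => ?_
  rw [hmul, mul_assoc sq3 x 1, E_mul_cancel sq3_ne_zero, mul_assoc]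

theorem Gx_prime_one {π : O} (hπ : Prime π) (hp : Primary π) (h2 : IsCoprime π 2) :
    -Gx π 1 = (Real.sqrt (N π) : ℝ) * eps π * conj (xi π) * conj (gg π) := by
  have h1 := hd_prime hπ hp h2
  have h3 := Gr_prime_one hπ h2
  rw [Gr, rsum_sq3 hp (rho_per π) (rho_mul π sq3)] at h3
  rw [Gx, rsum_sq3 hp (x6_per π) (x6_mul π sq3)]
  rw [PS.gs_one_eq_gt hp, map_mul, Complex.conj_ofReal] at h1
  have h4 := gt_one_prime_cube hπ hp
  have h5 : conj (gt 1 π) * gt 1 π = 1 := by
    rw [mul_comm, Complex.mul_conj, Complex.normSq_eq_norm_sq,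
      norm_gt hp hπ.squarefree isCoprime_one_left]; simp
  have h6 : x6 π 4 = ch π 2 := by
    rw [← x6_sq, ← x6_pow]; norm_num
  have h7 : conj (ch π 2) * ch π 2 = 1 := by
    rw [ch_conj_mul, cop_of_coprime h2.symm]
  have h8 : rho π sq3 * rho π sq3 = 1 := by
    rw [rho_mul_self, cop_of_coprime (isCoprime_sq3 hp)]
  have h9 := sqrt_N_ne_zero hπ.ne_zero
  have h10 : gt 1 π ^ 3 = -alpha π := by rw [h4, alpha, neg_div]
  rw [h6] at h1
  rw [xi_of_primary hp, ch_mul, gg, x6_eq, map_mul, map_mul, Complex.conj_conj]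
  set s : ℂ := ((Real.sqrt (N π) : ℝ) : ℂ)
  set G1 := rsum π (fun x => x6 π x * E π (x * 1))
  set G3 := rsum π (fun x => rho π x * E π (x * 1))
  set γ := gt 1 π
  set γ' := conj (gt 1 π)
  have k1 : ch π 2 * G1 * γ' = γ * G3 := by
    apply mul_left_cancel₀ h9
    linear_combination h1
  have k2 : G1 = conj (ch π 2) * γ ^ 2 * G3 := by
    linear_combination (conj (ch π 2) * γ) * k1 - G1 * (γ' * γ) * h7 - G1 * h5
  have k3 : γ ^ 2 = -alpha π * γ' := by
    linear_combination γ' * h10 - γ ^ 2 * h5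
  rw [k2, k3]
  linear_combination (conj (ch π sq3) * conj (ch π 2) * alpha π * γ') * h3

theorem mob_prime {π : O} (hπ : Prime π) : HB.mob π = -1 := by
  have h := HB.mob_mul hπ one_ne_zero
  rwa [mul_one, HB.mob_one] at h

theorem mob_mul_self (n : O) : HB.mob n * HB.mob n = 1 := by
  rw [HB.mob, ← pow_add, ← two_mul, pow_mul]; simp

theorem Gx_prime {π : O} (hπ : Prime π) (hp : Primary π) (h2 : IsCoprime π 2) (h : O) :
    -Gx π h = (Real.sqrt (N π) : ℝ) * eps π * conj (xi π) * conj (gg π) * conj (x6 π h) := by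
  by_cases hh : π ∣ h
  · have h1 : x6 π h = 0 := x6_eq_zero.2 fun hc => (hπ.coprime_iff_not_dvd.1 hc.symm) hh
    rw [h1, map_zero, mul_zero, neg_eq_zero, Gx, ← rsum_x6_prime hπ h2]
    refine rsum_congr fun x => ?_
    obtain ⟨k, rfl⟩ := hh
    rw [mul_comm sq3 π, show x * (π * k) = π * (x * k) by ring, E_mul_cancel hπ.ne_zero, E_sq3,
      mul_one]
  · rw [Gx_twist hπ.ne_zero (hπ.coprime_iff_not_dvd.2 hh).symm, ← Gx_prime_one hπ hp h2]
    ring

/-- **Moebius times the sextic Gauss sum is a cubic Gauss sum.** -/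
theorem mob_mul_Gx {b : O} (hb : Primary b) (h2 : IsCoprime b 2) (hs : Squarefree b) (h : O) :
    HB.mob b * Gx b h =
      (Real.sqrt (N b) : ℝ) * eps b * conj (xi b) * conj (gg b) * conj (x6 b h) := by
  revert h2 hs
  revert b
  have key : ∀ b : O, Primary b → (IsCoprime b 2 → Squarefree b → HB.mob b * Gx b h =
      (Real.sqrt (N b) : ℝ) * eps b * conj (xi b) * conj (gg b) * conj (x6 b h)) := by
    apply Primary.induction
    · intro _ _
      rw [HB.mob_one, Gx, rsum_unit isUnit_one ((x6_per 1).mul (E_per_sq3 one_ne_zero h)),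
        xi_of_primary primary_one]
      simp [E_zero]
    · intro π b hπ hp hb ih h2 hs
      rw [odd_mul_iff] at h2
      rw [squarefree_mul_iff, isRelPrime_iff_isCoprime] at hs
      have h1 := Gx_prime hπ hp h2.1 h
      have h3 := ih h2.2 hs.2.2
      have h4 : x6 π b * x6 b π = hil π b * conj (x6 b (π ^ 4)) := by
        rw [x6_recip hp hb h2.1 h2.2, x6_pow, x6_pow_four, Complex.conj_conj, ← x6_sq]
        ring
      rw [HB.mob_mul hπ hb.ne_zero, Gx_mul hπ.ne_zero hb.ne_zero hs.1, h4, sqrt_N_mul',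
        eps_mul h2.1 h2.2, xi_mul hp hb, gg_mul hp hb hs.1, x6_mul_left hπ.ne_zero hb.ne_zero]
      simp only [map_mul]
      have h5 : -HB.mob b * (hil π b * conj (x6 b (π ^ 4)) * (Gx π h * Gx b h)) =
          hil π b * conj (x6 b (π ^ 4)) * ((-Gx π h) * (HB.mob b * Gx b h)) := by ring
      rw [h5, h1, h3]
      ring
  exact fun {b} hb => key b hb

theorem Gx_eq {b : O} (hb : Primary b) (h2 : IsCoprime b 2) (hs : Squarefree b) (h : O) :
    Gx b h = HB.mob b *
      ((Real.sqrt (N b) : ℝ) * eps b * conj (xi b) * conj (gg b) * conj (x6 b h)) := by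
  rw [← mob_mul_Gx hb h2 hs, ← mul_assoc, mob_mul_self, one_mul]

theorem conj_E (m x : O) : conj (E m x) = E m (-x) := by
  rw [E, E, ← e_neg, ← TrC_neg, map_neg, neg_div]

theorem conj_mob (n : O) : conj (HB.mob n) = HB.mob n := by
  rw [HB.mob, map_pow, map_neg, map_one]

/-- the Gauss sum of the conjugate character -/
theorem rsum_conj_x6 {a : O} (ha : Primary a) (h2 : IsCoprime a 2) (hs : Squarefree a) (h : O) :
    rsum a (fun x => conj (x6 a x) * E (sq3 * a) (x * h)) =
      HB.mob a * ((Real.sqrt (N a) : ℝ) * eps a * xi a * gg a * x6 a h) := by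
  have : NeZero a := ⟨ha.ne_zero⟩
  have h1 : rsum a (fun x => conj (x6 a x) * E (sq3 * a) (x * h)) = conj (Gx a (-h)) := by
    rw [Gx, ← rsum_conj]
    refine rsum_congr fun x => ?_
    rw [map_mul, conj_E, mul_neg, neg_neg]
  rw [h1, Gx_eq ha h2 hs, x6_neg]
  simp only [map_mul, Complex.conj_conj, Complex.conj_ofReal, conj_mob]
  have h3 := rho_neg_one_mul_conj_eps h2
  linear_combination (HB.mob a * (Real.sqrt (N a) : ℝ) * xi a * gg a * x6 a h) * h3

/-- the sign in the pair identity -/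
noncomputable def Esg (a b : O) : ℂ := eps (a * b) * xi a * conj (xi b)

theorem norm_Esg_le (a b : O) : ‖Esg a b‖ ≤ 1 := by
  rw [Esg, norm_mul, norm_mul, norm_eps, one_mul, Complex.norm_conj]
  exact mul_le_one₀ (norm_xi_le a) (norm_nonneg _) (norm_xi_le b)

theorem Esg_per_left (b : O) : Per 36 (fun a => Esg a b) := by
  intro a a' h
  have h4 : (4 : O) ∣ a * b - a' * b := by
    rw [← sub_mul]
    exact Dvd.dvd.mul_right (Dvd.dvd.trans ⟨9, by norm_num⟩ h) b
  simp only [Esg]
  rw [eps_congr h4, xi_per a a' (Dvd.dvd.trans ⟨2, by norm_num⟩ h)]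

theorem Esg_per_right (a : O) : Per 36 (Esg a) := by
  intro b b' h
  have h4 : (4 : O) ∣ a * b - a * b' := by
    rw [← mul_sub]
    exact Dvd.dvd.mul_left (Dvd.dvd.trans ⟨9, by norm_num⟩ h) a
  simp only [Esg]
  rw [eps_congr h4, xi_per b b' (Dvd.dvd.trans ⟨2, by norm_num⟩ h)]

/-- **The pair identity.** -/
theorem pair_sum {a b : O} (ha : Primary a) (hb : Primary b) (ha2 : IsCoprime a 2)
    (hb2 : IsCoprime b 2) (sa : Squarefree a) (sb : Squarefree b) (hab : IsCoprime a b) (h : O) :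
    rsum (a * b) (fun x => (conj (x6 a x) * x6 b x) * E (sq3 * (a * b)) (x * h)) =
      ((Real.sqrt (N a) * Real.sqrt (N b) : ℝ) : ℂ) *
        ((Esg a b * (HB.mob a * HB.mob b) * (gg a * conj (gg b))) * (x6 a h * conj (x6 b h))) := by
  have : NeZero a := ⟨ha.ne_zero⟩
  have : NeZero b := ⟨hb.ne_zero⟩
  have h1 := rsum_mul_E3 ha.ne_zero hb.ne_zero hab (x6_per a).conj (x6_per b) h
  simp only [x6_mul, map_mul, mul_assoc, rsum_const_mul] at h1
  simp only [mul_assoc (conj (x6 a _))]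
  rw [h1, rsum_conj_x6 ha ha2 sa]
  have h2 := Gx_eq hb hb2 sb h
  rw [Gx] at h2
  rw [h2, Esg, eps_mul ha2 hb2]
  have h3 : conj (x6 a b) * x6 b a = hil a b := by
    rw [x6_recip ha hb ha2 hb2, map_mul, map_intCast, mul_assoc, conj_x6_mul, cop_of_coprime hab,
      mul_one]
  push_cast
  linear_combination (HB.mob a * HB.mob b * (Real.sqrt (N a) : ℝ) * (Real.sqrt (N b) : ℝ) *
    eps a * eps b * xi a * conj (xi b) * gg a * conj (gg b) * x6 a h * conj (x6 b h)) * h3

end Vale.Agent.P026Z.Sym
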