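import Vale.Agent.P026Z.Sym.Sext
import Mathlib.NumberTheory.Zsqrtd.GaussianInt

/-!
P026, block SYM: the sign `eps c` of the quadratic Gauss sum and the Hilbert symbol `hil a b` at
the prime `2`, as explicit functions of the residue classes modulo `4`.
-/

namespace Vale.Agent.P026Z.Sym

open Vale.Agent.P006 Vale.Agent.P006.V1
open scoped ComplexConjugate

/-- the ring `O/4` -/
abbrev R4 : Type := QuadraticAlgebra (ZMod 4) (-1) (-1)

/-- reduction modulo `4` -/
def red4 (z : O) : R4 := ⟨(z.re : ZMod 4), (z.im : ZMod 4)⟩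

theorem red4_mul (a b : O) : red4 (a * b) = red4 a * red4 b := by
  ext <;> simp [red4]

theorem red4_pow (a : O) (k : ℕ) : red4 (a ^ k) = red4 a ^ k := by
  induction k with
  | zero => rfl
  | succ k ih => rw [pow_succ, pow_succ, red4_mul, ih]

theorem re_four : (4 : O).re = 4 := rfl
theorem im_four : (4 : O).im = 0 := rfl

theorem red4_congr {a b : O} (h : (4 : O) ∣ a - b) : red4 a = red4 b := by
  obtain ⟨t, ht⟩ := h
  have h1 : a = b + 4 * t := by rw [← ht]; ring
  have h4 : (4 : ZMod 4) = 0 := rfl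
  rw [h1]
  ext <;> simp [red4, re_four, im_four, h4]

/-- oddness of a class modulo `4` -/
def od4 (x : R4) : Prop := ¬ (2 * x.re = 0 ∧ 2 * x.im = 0)

instance (x : R4) : Decidable (od4 x) := by unfold od4; infer_instance

theorem two_mul_cast (a : ℤ) : (2 : ZMod 4) * (a : ZMod 4) = 0 ↔ (2 : ℤ) ∣ a := by
  have h : (2 : ZMod 4) * (a : ZMod 4) = ((2 * a : ℤ) : ZMod 4) := by push_cast; rfl
  rw [h, ZMod.intCast_zmod_eq_zero_iff_dvd]
  push_cast
  omega

theorem od4_red4 {c : O} : od4 (red4 c) ↔ IsCoprime c 2 := by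
  rw [odd_iff_not_dvd, two_dvd_iff, od4]
  simp only [red4, two_mul_cast]

/-- `x³ = 1 + 2 s`; the class of `s` modulo `2` -/
def sg (x : R4) : ZMod 2 × ZMod 2 :=
  (if (x * x * x).re = 3 then 1 else 0, if (x * x * x).im = 2 then 1 else 0)

/-- the trace pairing of the field with four elements, as a sign -/
def pr2 (s t : ZMod 2 × ZMod 2) : ℤ := if s.1 * t.2 + s.2 * t.1 + s.2 * t.2 = 0 then 1 else -1

/-- the sign of the Gauss sum, on classes modulo 4 -/
def epsG (x : R4) : GaussianInt :=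
  if (sg x).2 = 0 then 1 else if (sg x).1 = 0 then ⟨0, 1⟩ else ⟨0, -1⟩

/-- powers of `i` -/
def iz (m : ZMod 4) : GaussianInt :=
  if m = 0 then 1 else if m = 1 then ⟨0, 1⟩ else if m = 2 then -1 else ⟨0, -1⟩

theorem sg_mul_aux : ∀ a b c d : ZMod 4, od4 ⟨a, b⟩ → od4 ⟨c, d⟩ →
    sg (⟨a, b⟩ * ⟨c, d⟩) = sg ⟨a, b⟩ + sg ⟨c, d⟩ := by decide

theorem pr2_add_left : ∀ r s t : ZMod 2 × ZMod 2, pr2 (r + s) t = pr2 r t * pr2 s t := by decide

theorem pr2_comm : ∀ s t : ZMod 2 × ZMod 2, pr2 s t = pr2 t s := by decide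

theorem epsG_mul_aux : ∀ a b c d : ZMod 4, od4 ⟨a, b⟩ → od4 ⟨c, d⟩ →
    epsG (⟨a, b⟩ * ⟨c, d⟩) = (pr2 (sg ⟨a, b⟩) (sg ⟨c, d⟩) : ℤ) * epsG ⟨a, b⟩ * epsG ⟨c, d⟩ := by
  decide

theorem epsG_sq_aux : ∀ a b : ZMod 4, od4 ⟨a, b⟩ →
    epsG ⟨a, b⟩ * epsG ⟨a, b⟩ = (pr2 (sg (red4 (-1))) (sg ⟨a, b⟩) : ℤ) := by decide

theorem sg_sq_aux : ∀ a b : ZMod 4, od4 ⟨a, b⟩ → sg (⟨a, b⟩ * ⟨a, b⟩) = 0 := by decide

theorem epsG_H_aux : ∀ a b : ZMod 4, od4 ⟨a, b⟩ →
    epsG ⟨a, b⟩ * (1 + iz b + iz (-a) + iz (a - b)) = 2 := by decide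

theorem pr2_neg_one_aux : ∀ a b : ZMod 4, od4 ⟨a, b⟩ →
    pr2 (sg (red4 (-1))) (sg ⟨a, b⟩) = if a * a - a * b + b * b = 1 then 1 else -1 := by decide

/-! ### The Hilbert symbol -/

/-- the Hilbert symbol `(a,b)` at the prime `2` (meaningful for odd `a`, `b`) -/
def hil (a b : O) : ℤ := pr2 (sg (red4 a)) (sg (red4 b))

theorem hil_cases (a b : O) : hil a b = 1 ∨ hil a b = -1 := by
  unfold hil pr2; split_ifs <;> simp

theorem hil_mul_self (a b : O) : hil a b * hil a b = 1 := by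
  rcases hil_cases a b with h | h <;> rw [h] <;> norm_num

theorem hil_ne_zero (a b : O) : hil a b ≠ 0 := by
  rcases hil_cases a b with h | h <;> rw [h] <;> norm_num

theorem norm_hil (a b : O) : ‖(hil a b : ℂ)‖ = 1 := by
  rcases hil_cases a b with h | h <;> rw [h] <;> simp

theorem hil_cast_mul_self (a b : O) : (hil a b : ℂ) * (hil a b : ℂ) = 1 := by
  rw [← Int.cast_mul, hil_mul_self, Int.cast_one]

theorem hil_comm (a b : O) : hil a b = hil b a := pr2_comm _ _

theorem hil_congr_left {a a' : O} (h : (4 : O) ∣ a - a') (b : O) : hil a b = hil a' b := by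
  rw [hil, hil, red4_congr h]

theorem hil_congr_right (a : O) {b b' : O} (h : (4 : O) ∣ b - b') : hil a b = hil a b' := by
  rw [hil, hil, red4_congr h]

theorem hil_congr {a a' b b' : O} (h : (4 : O) ∣ a - a') (h' : (4 : O) ∣ b - b') :
    hil a b = hil a' b' := by
  rw [hil_congr_left h, hil_congr_right _ h']

theorem hil_per_left (b : O) : Per 4 (fun a => (hil a b : ℂ)) := fun _ _ h => by
  simp only [hil_congr_left h]

theorem hil_per_right (a : O) : Per 4 (fun b => (hil a b : ℂ)) := fun _ _ h => by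
  simp only [hil_congr_right a h]

theorem sg_mul {a b : O} (ha : IsCoprime a 2) (hb : IsCoprime b 2) :
    sg (red4 (a * b)) = sg (red4 a) + sg (red4 b) := by
  rw [red4_mul]
  exact sg_mul_aux _ _ _ _ (od4_red4.2 ha) (od4_red4.2 hb)

theorem hil_mul_left {a a' : O} (ha : IsCoprime a 2) (ha' : IsCoprime a' 2) (b : O) :
    hil (a * a') b = hil a b * hil a' b := by
  rw [hil, sg_mul ha ha', pr2_add_left]; rfl

theorem hil_mul_right (a : O) {b b' : O} (hb : IsCoprime b 2) (hb' : IsCoprime b' 2) :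
    hil a (b * b') = hil a b * hil a b' := by
  rw [hil_comm, hil_mul_left hb hb', hil_comm b, hil_comm b']

theorem pr2_zero_left : ∀ t : ZMod 2 × ZMod 2, pr2 0 t = 1 := by decide

@[simp] theorem hil_one_left (b : O) : hil 1 b = 1 := pr2_zero_left _

@[simp] theorem hil_one_right (a : O) : hil a 1 = 1 := by rw [hil_comm, hil_one_left]

theorem hil_om_left (b : O) : hil om b = 1 := pr2_zero_left _

theorem hil_om_right (a : O) : hil a om = 1 := by rw [hil_comm, hil_om_left]

theorem hil_sq_left {a : O} (ha : IsCoprime a 2) (b : O) : hil (a * a) b = 1 := by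
  rw [hil_mul_left ha ha, hil_mul_self]

theorem hil_pow_left {a : O} (ha : IsCoprime a 2) (b : O) (k : ℕ) :
    hil (a ^ k) b = hil a b ^ k := by
  induction k with
  | zero => simp
  | succ k ih => rw [pow_succ, pow_succ, hil_mul_left (IsCoprime.pow_left ha) ha, ih]

theorem hil_pow_right (a : O) {b : O} (hb : IsCoprime b 2) (k : ℕ) :
    hil a (b ^ k) = hil a b ^ k := by
  rw [hil_comm, hil_pow_left hb, hil_comm]

theorem hil_of_one_mod_four {a : O} (ha : (4 : O) ∣ a - 1) (b : O) : hil a b = 1 := by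
  rw [hil_congr_left ha, hil_one_left]

theorem hil_neg_one {b : O} (hb : IsCoprime b 2) :
    hil (-1) b = if N b % 4 = 1 then 1 else -1 := by
  have h := pr2_neg_one_aux _ _ (od4_red4.2 hb)
  have h1 : ((N b : ℕ) : ZMod 4) =
      (b.re : ZMod 4) * b.re - (b.re : ZMod 4) * b.im + (b.im : ZMod 4) * b.im := by
    have := congrArg (fun m : ℤ => (m : ZMod 4)) (N_cast_int' b)
    simpa using this
  have h2 : (((N b : ℕ) : ZMod 4) = 1) ↔ N b % 4 = 1 := by
    rw [show (1 : ZMod 4) = ((1 : ℕ) : ZMod 4) by rfl, ZMod.natCast_eq_natCast_iff']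
  rw [hil]
  refine h.trans (if_congr ?_ rfl rfl)
  rw [← h2, h1]

/-! ### The sign of the Gauss sum -/

/-- the normalised quadratic Gauss sum `N(c)^{-1/2} ∑_{x mod c} e(Tr(x²/(√-3 c)))`, as an explicit
function of `c` modulo `4` -/
noncomputable def eps (c : O) : ℂ := GaussianInt.toComplex (epsG (red4 c))

theorem eps_congr {a b : O} (h : (4 : O) ∣ a - b) : eps a = eps b := by
  rw [eps, eps, red4_congr h]

theorem eps_per : Per 4 eps := fun _ _ h => eps_congr h

theorem toComplex_I : GaussianInt.toComplex ⟨0, 1⟩ = Complex.I := by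
  simp [GaussianInt.toComplex_def']

theorem toComplex_neg_I : GaussianInt.toComplex ⟨0, -1⟩ = -Complex.I := by
  simp [GaussianInt.toComplex_def']

theorem eps_cases (c : O) : eps c = 1 ∨ eps c = Complex.I ∨ eps c = -Complex.I := by
  unfold eps epsG
  split_ifs
  · left; exact map_one _
  · right; left; exact toComplex_I
  · right; right; exact toComplex_neg_I

theorem norm_eps (c : O) : ‖eps c‖ = 1 := by
  rcases eps_cases c with h | h | h <;> rw [h] <;> simp

theorem eps_ne_zero (c : O) : eps c ≠ 0 := by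
  intro h; have := norm_eps c; rw [h] at this; simp at this

theorem conj_eps_mul (c : O) : conj (eps c) * eps c = 1 := by
  rw [mul_comm, Complex.mul_conj, Complex.normSq_eq_norm_sq, norm_eps]; simp

@[simp] theorem eps_one : eps 1 = 1 := by
  have : epsG (red4 1) = 1 := by decide
  rw [eps, this, map_one]

theorem eps_mul {a b : O} (ha : IsCoprime a 2) (hb : IsCoprime b 2) :
    eps (a * b) = hil a b * eps a * eps b := by
  have h := epsG_mul_aux _ _ _ _ (od4_red4.2 ha) (od4_red4.2 hb)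
  rw [eps, red4_mul]
  erw [h]
  rw [map_mul, map_mul, map_intCast]
  rfl

theorem eps_mul_self {a : O} (ha : IsCoprime a 2) : eps a * eps a = hil (-1) a := by
  have h := epsG_sq_aux _ _ (od4_red4.2 ha)
  rw [eps, ← map_mul]
  erw [h]
  rw [map_intCast]
  rfl

theorem conj_eps {a : O} (ha : IsCoprime a 2) : conj (eps a) = hil (-1) a * eps a := by
  rw [← eps_mul_self ha]
  have h := conj_eps_mul a
  have h2 : (hil (-1) a : ℂ) * hil (-1) a = 1 := hil_cast_mul_self _ _
  rw [← eps_mul_self ha] at h2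
  linear_combination (eps a * eps a * eps a) * h - conj (eps a) * h2

theorem eps_sq_arg {a : O} (ha : IsCoprime a 2) : eps (a * a) = 1 := by
  have h := sg_sq_aux _ _ (od4_red4.2 ha)
  rw [eps, red4_mul, epsG]
  erw [h]
  simp

/-- `eps (a b) = 1` when `a ≡ b mod 4` -/
theorem eps_mul_of_congr {a b : O} (ha : IsCoprime a 2) (h : (4 : O) ∣ a - b) :
    eps (a * b) = 1 := by
  rw [← eps_sq_arg ha]
  apply eps_congr
  have : a * b - a * a = -a * (a - b) := by ring
  rw [this]
  exact Dvd.dvd.mul_left h _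

theorem toComplex_iz (m : ℤ) : GaussianInt.toComplex (iz (m : ZMod 4)) = Complex.I ^ m := by
  obtain ⟨k, r, hr0, hr4, rfl⟩ : ∃ k r : ℤ, 0 ≤ r ∧ r < 4 ∧ m = 4 * k + r :=
    ⟨m / 4, m % 4, by omega, by omega, by omega⟩
  have h4 : (4 : ZMod 4) = 0 := rfl
  have h1 : ((4 * k + r : ℤ) : ZMod 4) = (r : ZMod 4) := by push_cast; rw [h4]; ring
  have h2 : Complex.I ^ (4 * k + r) = Complex.I ^ r := by
    rw [zpow_add₀ Complex.I_ne_zero, zpow_mul]
    have : Complex.I ^ (4 : ℤ) = 1 := by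
      rw [show (4 : ℤ) = ((4 : ℕ) : ℤ) by rfl, zpow_natCast, Complex.I_pow_four]
    rw [this, one_zpow, one_mul]
  rw [h1, h2]
  interval_cases r
  · have : iz ((0 : ℤ) : ZMod 4) = 1 := by decide
    rw [this]; simp
  · have : iz ((1 : ℤ) : ZMod 4) = ⟨0, 1⟩ := by decide
    rw [this, toComplex_I]; simp
  · have : iz ((2 : ℤ) : ZMod 4) = -1 := by decide
    rw [this, show (2 : ℤ) = ((2 : ℕ) : ℤ) by rfl, zpow_natCast, Complex.I_sq]; simp
  · have : iz ((3 : ℤ) : ZMod 4) = ⟨0, -1⟩ := by decide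
    rw [this, toComplex_neg_I, show (3 : ℤ) = ((3 : ℕ) : ℤ) by rfl, zpow_natCast,
      Complex.I_pow_three]

/-- the local factor at `2` of Hecke's reciprocity formula -/
theorem eps_mul_H {c : O} (hc : IsCoprime c 2) :
    eps c * (1 + Complex.I ^ c.im + Complex.I ^ (-c.re) + Complex.I ^ (c.re - c.im)) = 2 := by
  have h := congrArg GaussianInt.toComplex (epsG_H_aux _ _ (od4_red4.2 hc))
  rw [map_mul, map_add, map_add, map_add, map_one, map_ofNat] at h
  rw [← toComplex_iz, ← toComplex_iz, ← toComplex_iz]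
  push_cast
  exact h

end Vale.Agent.P026Z.Sym
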