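import Vale.Agent.P026Z.Sym.HD
import Vale.Agent.P026Z.Poi.Defs

/-!
P026, block SYM: the sextic data of the Poisson block (for any admissible theta coefficient).
-/

namespace Vale.Agent.P026Z.Sym

open Vale.Agent.P006 Vale.Agent.P006.V1 Vale.Agent.P026Z.Poi
open scoped ComplexConjugate

theorem x6_unit_congr {u m m' : O} (hu : IsUnit u) (hm : Adm m) (hm' : Adm m')
    (h : (72 : O) ∣ m - m') : x6 m u = x6 m' u :=
  x6_congr_left hu.ne_zero hm.1 hm'.1 hm.2 hm'.2 (by rwa [hu.mul_right_dvd])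

theorem x6_two_congr {m m' : O} (hm : Adm m) (hm' : Adm m') (h : (72 : O) ∣ m - m') :
    x6 m 2 = x6 m' 2 := by
  have h2 : (-2 : O) ∣ m - m' := Dvd.dvd.trans ⟨-36, by norm_num⟩ h
  rw [x6, x6, rho, rho, q2_two_congr hm.2 hm'.2 (Dvd.dvd.trans ⟨9, by norm_num⟩ h),
    ← sym_neg_left 2 m, ← sym_neg_left 2 m', recip primary_neg_two hm.1,
    recip primary_neg_two hm'.1, sym_periodic h2]

theorem x6_lam_congr {m m' : O} (hm : Adm m) (hm' : Adm m') (h : (72 : O) ∣ m - m') :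
    x6 m lam = x6 m' lam := by
  rw [x6, x6, rho, rho, q2_lam_left hm.1 hm.2, q2_lam_left hm'.1 hm'.2,
    hil_congr_right lam (Dvd.dvd.trans ⟨18, by norm_num⟩ h),
    sym_lam_congr hm.1 (Dvd.dvd.trans ⟨8, by norm_num⟩ h)]

/-- (BAD) for `k` composed of units and the primes above `6`, `(k/m)_6` depends on `m mod 72` -/
theorem x6_bad (k m m' : O) (j : ℕ) (hk : k ∣ 6 ^ j) (hm : Adm m) (hm' : Adm m')
    (h : (72 : O) ∣ m - m') : x6 m k = x6 m' k := by
  have hk0 : k ≠ 0 := by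
    rintro rfl
    exact pow_ne_zero j (by decide : (6 : O) ≠ 0) (zero_dvd_iff.1 hk)
  have key : ∀ k : O, k ≠ 0 → (k ∣ 6 ^ j → x6 m k = x6 m' k) := by
    apply induction_primes
    · intro u hu _; exact x6_unit_congr hu hm hm' h
    · intro π hπ hd
      have h6 : π ∣ 2 * (-(om ^ 2) * lam ^ 2) := by
        rw [← three_eq]
        exact (hπ.dvd_of_dvd_pow hd).trans ⟨1, by norm_num⟩
      rcases hπ.dvd_or_dvd h6 with h1 | h1
      · obtain ⟨u, hu⟩ := (hπ.associated_of_dvd prime_two_O h1).symm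
        rw [← hu, x6_mul, x6_mul, x6_two_congr hm hm' h, x6_unit_congr u.isUnit hm hm' h]
      · rw [(isUnit_om.pow 2).neg.dvd_mul_left] at h1
        obtain ⟨u, hu⟩ := (hπ.associated_of_dvd prime_lam (hπ.dvd_of_dvd_pow h1)).symm
        rw [← hu, x6_mul, x6_mul, x6_lam_congr hm hm' h, x6_unit_congr u.isUnit hm hm' h]
    · intro a b _ _ h1 h2 hd
      rw [x6_mul, x6_mul, h1 ((dvd_mul_right a b).trans hd), h2 ((dvd_mul_left b a).trans hd)]
  exact key k hk0 hk

/-- (SR) for admissible elements -/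
theorem x6_recip_adm (a b : O) (ha : Adm a) (hb : Adm b) : x6 a b = hil a b * x6 b a :=
  x6_recip ha.1 hb.1 ha.2 hb.2

/-- the weight of a cube -/
noncomputable def ww (b : O) : ℂ := (Real.sqrt (N b) : ℝ) * conj (alpha b) ^ 3

theorem ww_mul (b c : O) : ww (b * c) = ww b * ww c := by
  rw [ww, ww, ww, alpha_mul, map_mul, sqrt_N_mul']
  ring

theorem ww_one : ww 1 = 1 := by simp [ww]

theorem norm_ww (b : O) : ‖ww b‖ ≤ Real.sqrt (N b) := by
  rw [ww, norm_mul, norm_pow, Complex.norm_conj, Complex.norm_real,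
    Real.norm_of_nonneg (Real.sqrt_nonneg _)]
  exact mul_le_of_le_one_right (Real.sqrt_nonneg _)
    (pow_le_one₀ (norm_nonneg _) (norm_alpha_le b))

/-- the sextic data with modulus `q`, a nonzero multiple of `36` -/
noncomputable def sextOf (q : O) (hq0 : q ≠ 0) (hq : (36 : O) ∣ q) (tau : O → ℂ)
    (h1 : ∀ n b : O, Sq n → Adm b → tau (n * b ^ 3) = gg n * ww b)
    (h2 : ∀ k : O, Adm k → (¬ ∃ n b : O, Sq n ∧ Adm b ∧ k = n * b ^ 3) → tau k = 0) : Sext where
  q := q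
  chi := x6
  g := gg
  Esg := Esg
  w := ww
  tau := tau
  q_ne := hq0
  chi_mul n u v _ := x6_mul n u v
  chi_mul_left _ _ u ha hb := x6_mul_left ha.1.ne_zero hb.1.ne_zero u
  chi_one_left := x6_one_left
  chi_per n _ := x6_per n
  conj_mul n u _ := conj_x6_mul n u
  conj_eq n u _ := conj_x6 n u
  norm_g _ hn := norm_gg hn.1.1 hn.2
  g_mul _ _ hd hn h := gg_mul hd.1.1 hn.1.1 h
  pair _ _ h ha hb hab := pair_sum ha.1.1 hb.1.1 ha.1.2 hb.1.2 ha.2 hb.2 hab h
  Esg_per_left b := (Esg_per_left b).mono hq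
  Esg_per_right a := (Esg_per_right a).mono hq
  norm_Esg := norm_Esg_le
  w_mul b c _ _ := ww_mul b c
  w_one := ww_one
  norm_w b _ := norm_ww b
  tau_eq := h1
  tau_zero := h2

end Vale.Agent.P026Z.Sym
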