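import Vale.Agent.P026Z.Sym.Supp
import Vale.Agent.P026Z.QLS.Defs

/-!
P026, block SYM: the quadratic symbol satisfies the interface of the quadratic large sieve.
-/

namespace Vale.Agent.P026Z.Sym

open Vale.Agent.P006 Vale.Agent.P006.V1

theorem od_primary {n : O} (h : QLS.Od n) : Primary n := h.1

theorem od_odd {n : O} (h : QLS.Od n) : IsCoprime n 2 := odd_iff_not_dvd.2 h.2.2

theorem od_iff {n : O} : QLS.Od n ↔ Primary n ∧ Squarefree n ∧ IsCoprime n 2 := by
  rw [odd_iff_not_dvd]; rfl

theorem qsym_rho : QLS.QSym rho where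
  mul_right n x y _ := rho_mul n x y
  mul_left a b x ha hb _ := rho_mul_left (od_primary ha).ne_zero (od_primary hb).ne_zero x
  sq n x _ := rho_mul_self n x
  per n _ := rho_per n
  gauss a b h ha hb hab h4 := by
    have hs : Squarefree (a * b) := by
      rw [squarefree_mul_iff, isRelPrime_iff_isCoprime]
      exact ⟨hab, ha.2.1, hb.2.1⟩
    rw [quad_gauss ((od_odd ha).mul_left (od_odd hb)) hs, eps_mul_of_congr (od_odd ha) h4,
      mul_one, mul_comm]
  recip := ⟨fun a b => (hil a b : ℂ), fun a b => (norm_hil a b).le,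
    fun a _ _ h => by simp only [hil_congr_right a h],
    fun _ _ ha hb => rho_recip (od_odd ha) (od_odd hb)⟩

end Vale.Agent.P026Z.Sym
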