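import Vale.Agent.P006.CR.Symbol
import Mathlib.NumberTheory.LegendreSymbol.QuadraticChar.Basic

/-!
P026, block SYM: the quadratic residue symbol `q2 a b = (a/b)_2` on the Eisenstein integers.
-/

namespace Vale.Agent.P026Z.Sym

open Vale.Agent.P006 UniqueFactorizationMonoid

/-! ### The prime 2 and odd elements -/

theorem re_two : (2 : O).re = 2 := rfl
theorem im_two : (2 : O).im = 0 := rfl

theorem two_dvd_iff {z : O} : (2 : O) ∣ z ↔ (2 : ℤ) ∣ z.re ∧ (2 : ℤ) ∣ z.im := by
  constructor
  · rintro ⟨w, rfl⟩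
    constructor
    · exact ⟨w.re, by simp [re_two, im_two]⟩
    · exact ⟨w.im, by simp [re_two, im_two]⟩
  · rintro ⟨⟨a, ha⟩, ⟨b, hb⟩⟩
    refine ⟨⟨a, b⟩, ?_⟩
    ext
    · simp [ha, re_two, im_two]
    · simp [hb, re_two, im_two]

theorem two_dvd_iff_N {z : O} : (2 : O) ∣ z ↔ 2 ∣ N z := by
  rw [two_dvd_iff, ← Int.natCast_dvd_natCast, N_cast_int']
  obtain ⟨a, b⟩ := z
  simp only [Nat.cast_ofNat]
  constructor
  · rintro ⟨⟨x, rfl⟩, ⟨y, rfl⟩⟩
    exact ⟨2 * (x * x - x * y + y * y), by ring⟩
  · intro h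
    rcases Int.even_or_odd' a with ⟨x, rfl | rfl⟩ <;> rcases Int.even_or_odd' b with ⟨y, rfl | rfl⟩
    · exact ⟨dvd_mul_right _ _, dvd_mul_right _ _⟩
    · exfalso
      have : 2 * x * (2 * x) - 2 * x * (2 * y + 1) + (2 * y + 1) * (2 * y + 1)
          = 2 * (2 * x * x - x * (2 * y + 1) + 2 * y * y + 2 * y) + 1 := by ring
      rw [this] at h; omega
    · exfalso
      have : (2 * x + 1) * (2 * x + 1) - (2 * x + 1) * (2 * y) + 2 * y * (2 * y)
          = 2 * (2 * x * x + 2 * x - (2 * x + 1) * y + 2 * y * y) + 1 := by ring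
      rw [this] at h; omega
    · exfalso
      have : (2 * x + 1) * (2 * x + 1) - (2 * x + 1) * (2 * y + 1) + (2 * y + 1) * (2 * y + 1)
          = 2 * (2 * x * x + x - 2 * x * y + 2 * y * y + y) + 1 := by ring
      rw [this] at h; omega

theorem N_two : N (2 : O) = 4 := by decide

theorem prime_two_O : Prime (2 : O) := by
  refine ⟨by decide, ?_, ?_⟩
  · rw [isUnit_iff_N, N_two]; decide
  · intro a b h
    rw [two_dvd_iff_N, N_mul] at h
    rw [two_dvd_iff_N, two_dvd_iff_N]
    exact (Nat.Prime.dvd_mul Nat.prime_two).1 h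

theorem odd_iff_not_dvd {z : O} : IsCoprime z 2 ↔ ¬ (2 : O) ∣ z := by
  rw [isCoprime_comm]; exact prime_two_O.coprime_iff_not_dvd

theorem odd_iff_N {z : O} : IsCoprime z 2 ↔ Odd (N z) := by
  rw [odd_iff_not_dvd, two_dvd_iff_N, ← even_iff_two_dvd, Nat.not_even_iff_odd]

theorem odd_ne_zero {z : O} (h : IsCoprime z 2) : z ≠ 0 := by
  rintro rfl
  exact odd_iff_not_dvd.1 h (dvd_zero _)

theorem odd_mul_iff {a b : O} : IsCoprime (a * b) 2 ↔ IsCoprime a 2 ∧ IsCoprime b 2 :=
  IsCoprime.mul_left_iff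

theorem odd_of_dvd {a b : O} (hb : IsCoprime b 2) (h : a ∣ b) : IsCoprime a 2 :=
  hb.of_isCoprime_of_dvd_left h

theorem odd_of_isUnit {u : O} (hu : IsUnit u) : IsCoprime u 2 := by
  obtain ⟨v, rfl⟩ := hu
  exact ⟨((v⁻¹ : Oˣ) : O), 0, by simp⟩

theorem odd_congr {a b : O} (h : (2 : O) ∣ a - b) : IsCoprime a 2 ↔ IsCoprime b 2 := by
  rw [odd_iff_not_dvd, odd_iff_not_dvd]
  apply not_congr
  constructor
  · intro h1; simpa using dvd_sub h1 h
  · intro h1; simpa using dvd_add h h1

theorem odd_star {a : O} (h : IsCoprime a 2) : IsCoprime (star a) 2 := by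
  rwa [odd_iff_N, N_star, ← odd_iff_N]

theorem primary_neg_two : Primary (-2 : O) := by decide

/-- the residue field of an odd prime has odd characteristic -/
theorem ringChar_ne_two {π : O} [Fact (Prime π)] (h : IsCoprime π 2) : ringChar (Rs π) ≠ 2 := by
  intro h2
  have h3 := FiniteField.even_card_of_char_two h2
  rw [fcard_Rs] at h3
  have h4 := odd_iff_N.1 h
  rw [Nat.odd_iff] at h4
  omega

/-! ### The symbol at a prime -/

open Classical in
/-- the quadratic symbol of `a` modulo a prime `π` -/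
noncomputable def qP (a π : O) : ℤ :=
  if π ∣ a then 0 else if ∃ x : O, π ∣ a - x * x then 1 else -1

theorem qP_congr {a π π' : O} (h : Associated π π') : qP a π = qP a π' := by
  classical
  have h2 : ∀ x, π ∣ x ↔ π' ∣ x := fun x => h.dvd_iff_dvd_left
  rw [qP, qP]
  exact if_congr (h2 a) rfl (if_congr (exists_congr fun x => h2 _) rfl rfl)

theorem qP_eq {π : O} [Fact (Prime π)] [DecidableEq (Rs π)] (a : O) :
    qP a π = quadraticChar (Rs π) (rs π a) := by
  classical
  have h1 : IsSquare (rs π a) ↔ ∃ x : O, π ∣ a - x * x := by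
    constructor
    · rintro ⟨y, hy⟩
      obtain ⟨x, rfl⟩ := rs_surj π y
      exact ⟨x, by rw [← rs_eq, hy, map_mul]⟩
    · rintro ⟨x, hx⟩
      exact ⟨rs π x, by rw [← map_mul, rs_eq]; exact hx⟩
  rw [qP]
  split_ifs with h h'
  · rw [eq_comm, quadraticChar_eq_zero_iff, rs_eq_zero]; exact h
  · rw [eq_comm, quadraticChar_one_iff_isSquare (by rwa [Ne, rs_eq_zero]), h1]; exact h'
  · rw [eq_comm, quadraticChar_neg_one_iff_not_isSquare, h1]; exact h'

theorem qP_eq_zero {a π : O} : qP a π = 0 ↔ π ∣ a := by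
  unfold qP
  split_ifs with h1 h2 <;> simp [h1]

theorem qP_cases (a π : O) : qP a π = 0 ∨ qP a π = 1 ∨ qP a π = -1 := by
  unfold qP
  split_ifs <;> simp

theorem qP_mul {π : O} (hπ : Prime π) (a b : O) : qP (a * b) π = qP a π * qP b π := by
  classical
  have : Fact (Prime π) := ⟨hπ⟩
  rw [qP_eq, qP_eq, qP_eq, map_mul, map_mul]

theorem qP_periodic {π a b : O} (h : π ∣ a - b) : qP a π = qP b π := by
  classical
  have h1 : π ∣ a ↔ π ∣ b := by
    constructor
    · intro h1; simpa using dvd_sub h1 h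
    · intro h1; simpa using dvd_add h h1
  have h2 : ∀ x : O, π ∣ a - x * x ↔ π ∣ b - x * x := by
    intro x
    constructor
    · intro h1
      have := dvd_sub h1 h
      rwa [show a - x * x - (a - b) = b - x * x by ring] at this
    · intro h1
      have := dvd_add h h1
      rwa [show a - b + (b - x * x) = a - x * x by ring] at this
  rw [qP, qP]
  exact if_congr h1 rfl (if_congr (exists_congr h2) rfl rfl)

theorem qP_star (a π : O) : qP (star a) (star π) = qP a π := by
  classical
  have h1 : star π ∣ star a ↔ π ∣ a := by rw [star_dvd_iff, star_star]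
  have h2 : (∃ x : O, star π ∣ star a - x * x) ↔ ∃ x : O, π ∣ a - x * x := by
    constructor
    · rintro ⟨x, hx⟩
      refine ⟨star x, ?_⟩
      rwa [star_dvd_iff, star_sub, star_star, star_mul'] at hx
    · rintro ⟨x, hx⟩
      refine ⟨star x, ?_⟩
      rwa [star_dvd_iff, star_sub, star_star, star_mul', star_star]
  rw [qP, qP]
  exact if_congr h1 rfl (if_congr h2 rfl rfl)

/-- at the prime 2 the symbol is the trivial character -/
theorem qP_two {a : O} (ha : IsCoprime a 2) : qP a 2 = 1 := by
  classical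
  have : Fact (Prime (2 : O)) := ⟨prime_two_O⟩
  rw [qP_eq]
  apply quadraticChar_eq_one_of_char_two
  · apply FiniteField.even_card_iff_char_two.2
    rw [fcard_Rs, N_two]
  · rw [Ne, rs_eq_zero]; exact odd_iff_not_dvd.1 ha

/-! ### The general symbol -/

/-- the quadratic residue symbol `(a/b)_2`; at the prime `2` the symbol is the trivial
character; by convention `(a/0)_2` is `1` for units `a` and `0` otherwise -/
noncomputable def q2 (a b : O) : ℤ :=
  if b = 0 then (if N a = 1 then 1 else 0) else ((factors b).map (qP a)).prod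

theorem prod_map_qP_rel (a : O) {s t : Multiset O} (h : Multiset.Rel Associated s t) :
    (s.map (qP a)).prod = (t.map (qP a)).prod := by
  induction h with
  | zero => rfl
  | cons h1 _ ih => simp only [Multiset.map_cons, Multiset.prod_cons, ih, qP_congr h1]

theorem q2_zero_right (a : O) : q2 a 0 = if N a = 1 then 1 else 0 := by
  rw [q2, if_pos rfl]

theorem q2_of_ne_zero {b : O} (a : O) (hb : b ≠ 0) :
    q2 a b = ((factors b).map (qP a)).prod := by
  rw [q2, if_neg hb]

theorem q2_mul_right (a : O) {b c : O} (hb : b ≠ 0) (hc : c ≠ 0) :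
    q2 a (b * c) = q2 a b * q2 a c := by
  rw [q2_of_ne_zero a hb, q2_of_ne_zero a hc, q2_of_ne_zero a (mul_ne_zero hb hc),
    prod_map_qP_rel a (factors_mul hb hc), Multiset.map_add, Multiset.prod_add]

theorem q2_unit {b : O} (a : O) (hb : IsUnit b) : q2 a b = 1 := by
  have h : factors b = 0 := by
    by_contra hne
    obtain ⟨p, hp⟩ := Multiset.exists_mem_of_ne_zero hne
    exact (prime_of_factor p hp).not_isUnit (isUnit_of_dvd_unit (dvd_of_mem_factors hp) hb)
  rw [q2_of_ne_zero a hb.ne_zero, h]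
  rfl

@[simp] theorem q2_one_right (a : O) : q2 a 1 = 1 := q2_unit a isUnit_one

theorem q2_prime {π : O} (hπ : Prime π) (a : O) : q2 a π = qP a π := by
  rw [q2_of_ne_zero a hπ.ne_zero]
  have h : Multiset.Rel Associated (factors π) {π} := by
    apply factors_unique
    · exact fun x hx => irreducible_of_factor x hx
    · intro x hx; rw [Multiset.mem_singleton] at hx; rw [hx]; exact hπ.irreducible
    · rw [Multiset.prod_singleton]; exact factors_prod hπ.ne_zero
  rw [prod_map_qP_rel a h]
  simp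

theorem q2_eq_quadraticChar {π : O} [Fact (Prime π)] [DecidableEq (Rs π)] (a : O) :
    q2 a π = quadraticChar (Rs π) (rs π a) := by
  rw [q2_prime Fact.out, qP_eq]

theorem q2_assoc {b c : O} (a : O) (h : Associated b c) : q2 a b = q2 a c := by
  by_cases hb : b = 0
  · subst hb
    rw [(associated_zero_iff_eq_zero c).1 h.symm]
  · obtain ⟨u, rfl⟩ := h
    rw [q2_mul_right a hb u.ne_zero, q2_unit a u.isUnit, mul_one]

theorem q2_neg_right (a b : O) : q2 a (-b) = q2 a b :=
  q2_assoc a (Associated.neg_left (Associated.refl b))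

theorem q2_cases (a b : O) : q2 a b = 0 ∨ q2 a b = 1 ∨ q2 a b = -1 := by
  by_cases hb : b = 0
  · subst hb
    rw [q2_zero_right]
    split_ifs <;> simp
  · revert b
    apply induction_primes
    · intro u hu; rw [q2_unit a hu]; simp
    · intro π hπ; rw [q2_prime hπ]; exact qP_cases a π
    · intro b c hb hc h1 h2
      rw [q2_mul_right a hb hc]
      rcases h1 with h1 | h1 | h1 <;> rcases h2 with h2 | h2 | h2 <;> simp [h1, h2]

theorem q2_eq_zero {a b : O} : q2 a b = 0 ↔ ¬ IsCoprime a b := by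
  by_cases hb : b = 0
  · subst hb
    rw [q2_zero_right, isCoprime_zero_right, isUnit_iff_N]
    split_ifs with h <;> simp [h]
  · revert b
    apply induction_primes
    · intro u hu
      rw [q2_unit a hu]
      have : IsCoprime a u := by
        obtain ⟨v, rfl⟩ := hu
        exact ⟨0, ((v⁻¹ : Oˣ) : O), by simp⟩
      simp [this]
    · intro π hπ
      rw [q2_prime hπ, qP_eq_zero, isCoprime_comm, hπ.coprime_iff_not_dvd, not_not]
    · intro b c hb hc h1 h2
      rw [q2_mul_right a hb hc, mul_eq_zero, h1, h2, IsCoprime.mul_right_iff]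
      tauto

theorem q2_ne_zero {a b : O} : q2 a b ≠ 0 ↔ IsCoprime a b := by
  rw [Ne, q2_eq_zero, not_not]

theorem q2_dichotomy {a b : O} (h : IsCoprime a b) : q2 a b = 1 ∨ q2 a b = -1 :=
  (q2_cases a b).resolve_left (q2_ne_zero.2 h)

theorem q2_mul_self {a b : O} (h : IsCoprime a b) : q2 a b * q2 a b = 1 := by
  rcases q2_dichotomy h with h1 | h1 <;> rw [h1] <;> norm_num

theorem q2_sq {a b : O} (h : IsCoprime a b) : q2 a b ^ 2 = 1 := by
  rw [sq, q2_mul_self h]

theorem abs_q2_le (a b : O) : |q2 a b| ≤ 1 := by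
  rcases q2_cases a b with h | h | h <;> rw [h] <;> norm_num

theorem q2_mul_left (a a' b : O) : q2 (a * a') b = q2 a b * q2 a' b := by
  by_cases hb : b = 0
  · subst hb
    simp only [q2_zero_right, N_mul, mul_eq_one]
    split_ifs <;> simp_all
  · revert b
    apply induction_primes
    · intro u hu; simp only [q2_unit _ hu, mul_one]
    · intro π hπ; simp only [q2_prime hπ]; exact qP_mul hπ a a'
    · intro b c hb hc h1 h2
      simp only [q2_mul_right _ hb hc, h1, h2]; ring

@[simp] theorem q2_one_left (b : O) : q2 1 b = 1 := by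
  have h1 : q2 (1 * 1) b = q2 1 b * q2 1 b := q2_mul_left 1 1 b
  rw [mul_one, q2_mul_self isCoprime_one_left] at h1
  exact h1

theorem q2_periodic {a a' b : O} (h : b ∣ a - a') : q2 a b = q2 a' b := by
  by_cases hb : b = 0
  · subst hb
    rw [zero_dvd_iff, sub_eq_zero] at h
    rw [h]
  · revert b
    have : ∀ b : O, b ≠ 0 → (b ∣ a - a' → q2 a b = q2 a' b) := by
      apply induction_primes
      · intro u hu _; simp only [q2_unit _ hu]
      · intro π hπ h; simp only [q2_prime hπ]; exact qP_periodic h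
      · intro b c hb hc h1 h2 h
        simp only [q2_mul_right _ hb hc]
        rw [h1 ((dvd_mul_right b c).trans h), h2 ((dvd_mul_left c b).trans h)]
    exact fun {b} h hb => this b hb h

/-- the symbol only depends on `a` modulo the primes dividing `c` -/
theorem q2_congr_rad {a a' c : O} (hc : c ≠ 0) (h : ∀ π, Prime π → π ∣ c → π ∣ a - a') :
    q2 a c = q2 a' c := by
  revert h
  revert c
  have : ∀ c : O, c ≠ 0 → ((∀ π, Prime π → π ∣ c → π ∣ a - a') → q2 a c = q2 a' c) := by
    apply induction_primes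
    · intro u hu _; simp only [q2_unit _ hu]
    · intro π hπ h; exact q2_periodic (h π hπ dvd_rfl)
    · intro b c hb hc h1 h2 h
      simp only [q2_mul_right _ hb hc]
      rw [h1 fun π hπ hd => h π hπ (hd.trans (dvd_mul_right b c)),
        h2 fun π hπ hd => h π hπ (hd.trans (dvd_mul_left c b))]
  exact fun {c} hc h => this c hc h

theorem q2_pow_left (a b : O) (n : ℕ) : q2 (a ^ n) b = q2 a b ^ n := by
  induction n with
  | zero => simp
  | succ n ih => rw [pow_succ, pow_succ, q2_mul_left, ih]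

theorem q2_pow_right (a : O) {b : O} (hb : b ≠ 0) (n : ℕ) : q2 a (b ^ n) = q2 a b ^ n := by
  induction n with
  | zero => simp
  | succ n ih => rw [pow_succ, pow_succ, q2_mul_right _ (pow_ne_zero n hb) hb, ih]

theorem q2_sq_left {a b : O} (h : IsCoprime a b) : q2 (a ^ 2) b = 1 := by
  rw [q2_pow_left, q2_sq h]

theorem q2_mul_self_left {a b : O} (h : IsCoprime a b) : q2 (a * a) b = 1 := by
  rw [q2_mul_left, q2_mul_self h]

theorem q2_sq_right {a b : O} (hb : b ≠ 0) (h : IsCoprime a b) : q2 a (b ^ 2) = 1 := by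
  rw [q2_pow_right _ hb, q2_sq h]

theorem q2_star (a b : O) : q2 (star a) (star b) = q2 a b := by
  by_cases hb : b = 0
  · subst hb
    rw [star_zero]
    simp only [q2_zero_right, N_star]
  · revert b
    apply induction_primes
    · intro u hu
      have : IsUnit (star u) := by rwa [isUnit_iff_N, N_star, ← isUnit_iff_N]
      simp only [q2_unit _ hu, q2_unit _ this]
    · intro π hπ; simp only [q2_prime hπ, q2_prime (prime_star hπ)]; exact qP_star a π
    · intro b c hb hc h1 h2
      rw [star_mul', q2_mul_right _ (by simpa using hb) (by simpa using hc), h1, h2,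
        q2_mul_right _ hb hc]

theorem isCoprime_om (b : O) : IsCoprime om b := by
  obtain ⟨v, hv⟩ := isUnit_om
  rw [← hv]
  exact ⟨((v⁻¹ : Oˣ) : O), 0, by simp⟩

theorem q2_om (b : O) : q2 om b = 1 := by
  have h : om = om ^ 2 * om ^ 2 := by decide
  rw [h]
  exact q2_mul_self_left (IsCoprime.pow_left (isCoprime_om b))

theorem q2_two_right {a : O} (ha : IsCoprime a 2) : q2 a 2 = 1 := by
  rw [q2_prime prime_two_O, qP_two ha]

/-- `(a/lam)_2 = 1` for primary `a` -/
theorem q2_lam_right {a : O} (ha : Primary a) : q2 a lam = 1 := by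
  rw [q2_periodic (lam_dvd_three.trans ha), q2_one_left]

/-- the quadratic character modulo an odd prime is nontrivial -/
theorem exists_q2_eq_neg_one {π : O} (hπ : Prime π) (h2 : IsCoprime π 2) :
    ∃ a : O, IsCoprime a π ∧ q2 a π = -1 := by
  classical
  have : Fact (Prime π) := ⟨hπ⟩
  obtain ⟨x, hx⟩ := quadraticChar_exists_neg_one (ringChar_ne_two h2)
  obtain ⟨a, rfl⟩ := rs_surj π x
  rw [← q2_eq_quadraticChar] at hx
  exact ⟨a, q2_ne_zero.1 (by rw [hx]; norm_num), hx⟩

/-- Euler's criterion -/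
theorem q2_euler {π : O} (hπ : Prime π) (h2 : IsCoprime π 2) (a : O) :
    π ∣ a ^ (N π / 2) - (q2 a π : O) := by
  classical
  have : Fact (Prime π) := ⟨hπ⟩
  have h := quadraticChar_eq_pow_of_char_ne_two' (ringChar_ne_two h2) (rs π a)
  rw [← q2_eq_quadraticChar, fcard_Rs] at h
  rw [← rs_eq, map_pow, map_intCast, h]

end Vale.Agent.P026Z.Sym
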