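import Vale.Agent.P026Z.Sym.Quad
import Vale.Agent.P006.V1.Theta
import Vale.Agent.P006.CR.Reciprocity

/-!
P026, block SYM: the complex valued quadratic symbol `rho n a = (a/n)_2` and the sextic symbol
`x6 n a = (a/n)_6`.
-/

namespace Vale.Agent.P026Z.Sym

open Vale.Agent.P006 Vale.Agent.P006.V1
open scoped ComplexConjugate

/-- the quadratic character `a ↦ (a/n)_2` with complex values -/
noncomputable def rho (n a : O) : ℂ := (q2 a n : ℂ)

/-- the sextic character `a ↦ (a/n)_6` with complex values -/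
noncomputable def x6 (n a : O) : ℂ := rho n a * conj (toC (sym a n))

/-- the argument `n / |n|` -/
noncomputable def alpha (n : O) : ℂ := toC n / (‖toC n‖ : ℝ)

/-! ### `cop` -/

theorem cop_of_coprime {m x : O} (h : IsCoprime x m) : cop m x = 1 := by simp [cop, h]

theorem cop_of_not_coprime {m x : O} (h : ¬ IsCoprime x m) : cop m x = 0 := by simp [cop, h]

/-! ### The quadratic character -/

theorem rho_per (n : O) : Per n (rho n) := fun x y h => by rw [rho, rho, q2_periodic h]

theorem rho_mul (n x y : O) : rho n (x * y) = rho n x * rho n y := by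
  rw [rho, q2_mul_left, Int.cast_mul]; rfl

theorem rho_mul_left {a b : O} (ha : a ≠ 0) (hb : b ≠ 0) (x : O) :
    rho (a * b) x = rho a x * rho b x := by
  rw [rho, q2_mul_right x ha hb, Int.cast_mul]; rfl

@[simp] theorem rho_one_left (x : O) : rho 1 x = 1 := by simp [rho]

@[simp] theorem rho_one_right (n : O) : rho n 1 = 1 := by simp [rho]

theorem rho_unit_left {u : O} (hu : IsUnit u) (x : O) : rho u x = 1 := by
  simp [rho, q2_unit x hu]

theorem rho_assoc {a b : O} (h : Associated a b) (x : O) : rho a x = rho b x := by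
  rw [rho, rho, q2_assoc x h]

theorem rho_pow (n x : O) (k : ℕ) : rho n (x ^ k) = rho n x ^ k := by
  rw [rho, q2_pow_left, Int.cast_pow]; rfl

theorem rho_pow_left {n : O} (hn : n ≠ 0) (x : O) (k : ℕ) : rho (n ^ k) x = rho n x ^ k := by
  rw [rho, q2_pow_right x hn, Int.cast_pow]; rfl

theorem rho_eq_zero {n x : O} : rho n x = 0 ↔ ¬ IsCoprime x n := by
  rw [rho, Int.cast_eq_zero, q2_eq_zero]

theorem rho_ne_zero {n x : O} : rho n x ≠ 0 ↔ IsCoprime x n := by
  rw [Ne, rho_eq_zero, not_not]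

theorem rho_cases (n x : O) : rho n x = 0 ∨ rho n x = 1 ∨ rho n x = -1 := by
  rcases q2_cases x n with h | h | h <;> simp [rho, h]

theorem rho_dichotomy {n x : O} (h : IsCoprime x n) : rho n x = 1 ∨ rho n x = -1 :=
  (rho_cases n x).resolve_left (rho_ne_zero.2 h)

@[simp] theorem conj_rho (n x : O) : conj (rho n x) = rho n x := by
  rw [rho, map_intCast]

theorem rho_mul_self (n x : O) : rho n x * rho n x = cop n x := by
  by_cases h : IsCoprime x n
  · rw [cop_of_coprime h, rho, ← Int.cast_mul, q2_mul_self h, Int.cast_one]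
  · rw [cop_of_not_coprime h, rho_eq_zero.2 h, zero_mul]

theorem rho_sq (n x : O) : rho n x ^ 2 = cop n x := by rw [sq, rho_mul_self]

theorem rho_cube (n x : O) : rho n x ^ 3 = rho n x := by
  rcases rho_cases n x with h | h | h <;> rw [h] <;> norm_num

theorem norm_rho {n x : O} (h : IsCoprime x n) : ‖rho n x‖ = 1 := by
  rcases rho_dichotomy h with h | h <;> rw [h] <;> simp

theorem norm_rho_le (n x : O) : ‖rho n x‖ ≤ 1 := by
  rcases rho_cases n x with h | h | h <;> rw [h] <;> simp

theorem rho_om (n : O) : rho n om = 1 := by rw [rho, q2_om, Int.cast_one]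

theorem rho_sq_arg {n x : O} (h : IsCoprime x n) : rho n (x ^ 2) = 1 := by
  rw [rho_pow, rho_sq, cop_of_coprime h]

theorem rho_sq_arg' (n x : O) : rho n (x ^ 2) = cop n x := by
  rw [rho_pow, rho_sq]

theorem rho_star (n x : O) : rho (star n) (star x) = rho n x := by rw [rho, rho, q2_star]

/-! ### The cubic character -/

theorem ch_eq_zero {n x : O} : ch n x = 0 ↔ ¬ IsCoprime x n := by
  rw [ch, toC_eq_zero, sym_eq_zero]

theorem ch_pow_three (n x : O) : ch n x ^ 3 = cop n x := by
  by_cases h : IsCoprime x n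
  · rw [cop_of_coprime h, ch, ← map_pow, sym_cube h, map_one]
  · rw [cop_of_not_coprime h, ch_eq_zero.2 h]; norm_num

theorem ch_mul_cop (n x : O) : ch n x * cop n x = ch n x := by
  by_cases h : IsCoprime x n
  · rw [cop_of_coprime h, mul_one]
  · rw [ch_eq_zero.2 h, zero_mul]

theorem rho_mul_cop (n x : O) : rho n x * cop n x = rho n x := by
  by_cases h : IsCoprime x n
  · rw [cop_of_coprime h, mul_one]
  · rw [rho_eq_zero.2 h, zero_mul]

theorem cop_mul_self (n x : O) : cop n x * cop n x = cop n x := by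
  by_cases h : IsCoprime x n
  · rw [cop_of_coprime h, mul_one]
  · rw [cop_of_not_coprime h, zero_mul]

/-! ### The sextic character -/

theorem x6_eq (n a : O) : x6 n a = rho n a * conj (ch n a) := rfl

theorem x6_eq' (n a : O) : x6 n a = rho n a * ch n a ^ 2 := by rw [x6_eq, conj_ch]

theorem x6_per (n : O) : Per n (x6 n) := (rho_per n).mul (ch_per n).conj

theorem x6_mul (n x y : O) : x6 n (x * y) = x6 n x * x6 n y := by
  rw [x6_eq, x6_eq, x6_eq, rho_mul, ch_mul, map_mul]; ring

theorem x6_mul_left {a b : O} (ha : a ≠ 0) (hb : b ≠ 0) (x : O) :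
    x6 (a * b) x = x6 a x * x6 b x := by
  rw [x6_eq, x6_eq, x6_eq, rho_mul_left ha hb, ch_mul_left ha hb, map_mul]; ring

@[simp] theorem x6_one_left (x : O) : x6 1 x = 1 := by simp [x6_eq]

@[simp] theorem x6_one_right (n : O) : x6 n 1 = 1 := by simp [x6, sym_one_left]

theorem x6_unit_left {u : O} (hu : IsUnit u) (x : O) : x6 u x = 1 := by
  rw [x6, rho_unit_left hu, sym_unit x hu]; simp

theorem x6_assoc {a b : O} (h : Associated a b) (x : O) : x6 a x = x6 b x := by
  rw [x6, x6, rho_assoc h, sym_assoc x h]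

theorem x6_pow (n x : O) (k : ℕ) : x6 n (x ^ k) = x6 n x ^ k := by
  induction k with
  | zero => simp
  | succ k ih => rw [pow_succ, pow_succ, x6_mul, ih]

theorem x6_pow_left {n : O} (hn : n ≠ 0) (x : O) (k : ℕ) : x6 (n ^ k) x = x6 n x ^ k := by
  induction k with
  | zero => simp
  | succ k ih => rw [pow_succ, pow_succ, x6_mul_left (pow_ne_zero k hn) hn, ih]

theorem x6_eq_zero {n x : O} : x6 n x = 0 ↔ ¬ IsCoprime x n := by
  rw [x6_eq, mul_eq_zero, map_eq_zero, rho_eq_zero, ch_eq_zero, or_self]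

theorem x6_ne_zero {n x : O} : x6 n x ≠ 0 ↔ IsCoprime x n := by
  rw [Ne, x6_eq_zero, not_not]

theorem x6_sq (n x : O) : x6 n x ^ 2 = ch n x := by
  rw [x6_eq', mul_pow, rho_sq]
  have : (ch n x ^ 2) ^ 2 = ch n x * ch n x ^ 3 := by ring
  rw [this, ch_pow_three, ch_mul_cop, mul_comm, ch_mul_cop]

theorem x6_sq' (n x : O) : x6 n x ^ 2 = toC (sym x n) := x6_sq n x

theorem x6_cube (n x : O) : x6 n x ^ 3 = rho n x := by
  rw [x6_eq', mul_pow, rho_cube]
  have : (ch n x ^ 2) ^ 3 = ch n x ^ 3 * ch n x ^ 3 := by ring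
  rw [this, ch_pow_three, cop_mul_self, rho_mul_cop]

theorem x6_pow_four (n x : O) : x6 n x ^ 4 = conj (ch n x) := by
  rw [conj_ch, ← x6_sq]; ring

theorem x6_pow_six (n x : O) : x6 n x ^ 6 = cop n x := by
  rw [← rho_sq, ← x6_cube]; ring

theorem conj_x6 (n x : O) : conj (x6 n x) = x6 n x ^ 5 := by
  have : x6 n x ^ 5 = x6 n x ^ 3 * x6 n x ^ 2 := by ring
  rw [this, x6_cube, x6_sq, x6_eq, map_mul, conj_rho, Complex.conj_conj]

theorem conj_x6' (n x : O) : conj (x6 n x) = rho n x * ch n x := by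
  rw [x6_eq, map_mul, conj_rho, Complex.conj_conj]

theorem conj_x6_mul (n x : O) : conj (x6 n x) * x6 n x = cop n x := by
  rw [conj_x6, ← x6_pow_six]; ring

theorem x6_mul_conj (n x : O) : x6 n x * conj (x6 n x) = cop n x := by
  rw [mul_comm, conj_x6_mul]

theorem x6_mul_cop (n x : O) : x6 n x * cop n x = x6 n x := by
  by_cases h : IsCoprime x n
  · rw [cop_of_coprime h, mul_one]
  · rw [x6_eq_zero.2 h, zero_mul]

theorem norm_x6 {n x : O} (h : IsCoprime x n) : ‖x6 n x‖ = 1 := by
  rw [x6, norm_mul, norm_rho h, Complex.norm_conj, norm_sym h, one_mul]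

theorem norm_x6_le (n x : O) : ‖x6 n x‖ ≤ 1 := by
  by_cases h : IsCoprime x n
  · exact (norm_x6 h).le
  · rw [x6_eq_zero.2 h]; simp

theorem x6_sixth (n x : O) : x6 n (x ^ 6) = cop n x := by rw [x6_pow, x6_pow_six]

theorem x6_sixth_of_coprime {n x : O} (h : IsCoprime x n) : x6 n (x ^ 6) = 1 := by
  rw [x6_sixth, cop_of_coprime h]

/-- `x6 n x ^ j` depends only on `j` modulo `6` (for positive `j`) -/
theorem x6_pow_add_six (n x : O) {j : ℕ} (hj : 0 < j) : x6 n x ^ (j + 6) = x6 n x ^ j := by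
  obtain ⟨k, rfl⟩ : ∃ k, j = k + 1 := ⟨j - 1, by omega⟩
  rw [pow_add, x6_pow_six, pow_succ, mul_assoc, x6_mul_cop]

theorem x6_pow_mod {n x : O} (h : IsCoprime x n) (j : ℕ) : x6 n x ^ j = x6 n x ^ (j % 6) := by
  conv_lhs => rw [← Nat.mod_add_div j 6, pow_add, pow_mul, x6_pow_six, cop_of_coprime h, one_pow,
    mul_one]

theorem x6_neg_one (n : O) : x6 n (-1) = rho n (-1) := by
  rw [x6, sym_neg_one]; simp

theorem x6_neg (n x : O) : x6 n (-x) = rho n (-1) * x6 n x := by
  rw [← neg_one_mul, x6_mul, x6_neg_one]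

theorem x6_star (n x : O) : x6 (star n) (star x) = conj (x6 n x) := by
  rw [x6, x6, rho_star, map_mul, conj_rho, sym_star, toC_star]

/-- sextic times cubic is quadratic -/
theorem x6_mul_ch (n x : O) : x6 n x * ch n x = rho n x := by
  rw [← x6_sq, ← x6_cube]; ring

theorem conj_x6_mul_conj_ch (n x : O) : conj (x6 n x) * conj (ch n x) = rho n x := by
  rw [← map_mul, x6_mul_ch, conj_rho]

/-- for a prime `p`: `(u^6/p)_6` is the indicator of `p ∤ u`; for prime argument see
`x6_prime_sixth` -/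
theorem x6_prime_sixth {p : O} (hp : Prime p) (n : O) :
    x6 n (p ^ 6) = if p ∣ n then 0 else 1 := by
  rw [x6_sixth]
  split_ifs with h
  · exact cop_of_not_coprime (by rw [hp.coprime_iff_not_dvd]; exact not_not.2 h)
  · exact cop_of_coprime (hp.coprime_iff_not_dvd.2 h)

/-! ### The argument -/

theorem norm_toC_ne_zero {n : O} (hn : n ≠ 0) : ((‖toC n‖ : ℝ) : ℂ) ≠ 0 := by
  simpa using hn

theorem norm_alpha {n : O} (hn : n ≠ 0) : ‖alpha n‖ = 1 := by
  have h : ‖toC n‖ ≠ 0 := by simpa using hn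
  rw [alpha, norm_div, Complex.norm_real, norm_norm, div_self h]

theorem norm_alpha_le (n : O) : ‖alpha n‖ ≤ 1 := by
  by_cases hn : n = 0
  · subst hn; simp [alpha]
  · exact (norm_alpha hn).le

theorem alpha_mul (a b : O) : alpha (a * b) = alpha a * alpha b := by
  rw [alpha, alpha, alpha, map_mul, norm_mul]; push_cast; ring

@[simp] theorem alpha_one : alpha 1 = 1 := by simp [alpha]

theorem alpha_pow (a : O) (k : ℕ) : alpha (a ^ k) = alpha a ^ k := by
  induction k with
  | zero => simp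
  | succ k ih => rw [pow_succ, pow_succ, alpha_mul, ih]

theorem conj_alpha_mul {n : O} (hn : n ≠ 0) : conj (alpha n) * alpha n = 1 := by
  rw [mul_comm, Complex.mul_conj, Complex.normSq_eq_norm_sq, norm_alpha hn]; simp

theorem alpha_ne_zero {n : O} (hn : n ≠ 0) : alpha n ≠ 0 := by
  intro h; have := norm_alpha hn; rw [h] at this; simp at this

theorem alpha_eq_sqrt (n : O) : alpha n = toC n / (Real.sqrt (N n) : ℝ) := by
  rw [alpha, norm_toC]

theorem alpha_star (n : O) : alpha (star n) = conj (alpha n) := by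
  rw [alpha, alpha, toC_star, Complex.norm_conj, map_div₀, Complex.conj_ofReal]

end Vale.Agent.P026Z.Sym
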