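import Vale.Agent.P026Z.Sym.Recip
import Vale.Agent.P006.CR.CubeChar
import Mathlib.NumberTheory.LegendreSymbol.QuadraticChar.GaussSum

/-!
P026, block SYM: supplementary laws and the dependence of the symbols on the denominator.
-/

namespace Vale.Agent.P026Z.Sym

open Vale.Agent.P006 Vale.Agent.P006.V1
open scoped ComplexConjugate

theorem q2_unit_left {u b : O} (hu : IsUnit u) (hb : IsCoprime b 2) : q2 u b = hil u b := by
  rw [q2_recip' (odd_of_isUnit hu) hb, q2_unit b hu, mul_one]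

theorem q2_neg_one {b : O} (hb : IsCoprime b 2) : q2 (-1) b = hil (-1) b :=
  q2_unit_left isUnit_one.neg hb

theorem rho_neg_one {b : O} (hb : IsCoprime b 2) : rho b (-1) = hil (-1) b := by
  rw [rho, q2_neg_one hb]

theorem eps_mul_self' {a : O} (ha : IsCoprime a 2) : eps a * eps a = rho a (-1) := by
  rw [eps_mul_self ha, rho_neg_one ha]

theorem rho_neg_one_mul_conj_eps {a : O} (ha : IsCoprime a 2) :
    rho a (-1) * conj (eps a) = eps a := by
  rw [← eps_mul_self' ha]
  linear_combination (eps a) * conj_eps_mul a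

theorem odd_sq3 : IsCoprime sq3 2 := by rw [odd_iff_not_dvd, two_dvd_iff]; decide

theorem odd_lam : IsCoprime lam 2 := by rw [odd_iff_not_dvd, two_dvd_iff]; decide

theorem q2_lam_left {b : O} (hp : Primary b) (hb : IsCoprime b 2) : q2 lam b = hil lam b := by
  rw [q2_recip' odd_lam hb, q2_lam_right hp, mul_one]

theorem q2_sq3_left {b : O} (hp : Primary b) (hb : IsCoprime b 2) : q2 sq3 b = hil sq3 b := by
  rw [sq3_eq, q2_mul_left, q2_om, one_mul, q2_lam_left hp hb,
    hil_mul_left (odd_of_isUnit isUnit_om) odd_lam, hil_om_left, one_mul]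

theorem q2_two_left {b : O} (hb : IsCoprime b 2) : q2 2 b = ZMod.χ₈ (N b) := by
  classical
  have key : ∀ b : O, b ≠ 0 → (IsCoprime b 2 → q2 2 b = ZMod.χ₈ (N b)) := by
    apply induction_primes
    · intro u hu _
      rw [q2_unit _ hu, isUnit_iff_N.1 hu, Nat.cast_one, map_one]
    · intro π hπ h2
      have : Fact (Prime π) := ⟨hπ⟩
      rw [q2_eq_quadraticChar, map_ofNat, quadraticChar_two (ringChar_ne_two h2), fcard_Rs]
    · intro a c ha hc h1 h2 hac
      rw [odd_mul_iff] at hac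
      rw [q2_mul_right _ ha hc, h1 hac.1, h2 hac.2, N_mul, Nat.cast_mul, map_mul]
  exact key b (odd_ne_zero hb) hb

theorem N_congr_eight {b b' : O} (h : (8 : O) ∣ b - b') : (N b : ZMod 8) = (N b' : ZMod 8) := by
  obtain ⟨t, ht⟩ := h
  have h8r : (8 : O).re = 8 := rfl
  have h8i : (8 : O).im = 0 := rfl
  have e1 := congrArg QuadraticAlgebra.re ht
  have e2 := congrArg QuadraticAlgebra.im ht
  simp only [QuadraticAlgebra.re_sub, QuadraticAlgebra.im_sub, QuadraticAlgebra.re_mul,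
    QuadraticAlgebra.im_mul, h8r, h8i] at e1 e2
  have h1 : b.re = b'.re + 8 * t.re := by linarith
  have h2 : b.im = b'.im + 8 * t.im := by linarith
  have h3 : ((N b : ℤ) : ZMod 8) = ((N b' : ℤ) : ZMod 8) := by
    rw [N_cast_int', N_cast_int', h1, h2]
    push_cast
    have h8 : (8 : ZMod 8) = 0 := rfl
    rw [h8]
    ring
  simpa using h3

theorem q2_two_congr {b b' : O} (hb : IsCoprime b 2) (hb' : IsCoprime b' 2)
    (h : (8 : O) ∣ b - b') : q2 2 b = q2 2 b' := by
  rw [q2_two_left hb, q2_two_left hb', N_congr_eight h]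

theorem exists_two_pow_mul {k : O} (hk : k ≠ 0) :
    ∃ (j : ℕ) (k0 : O), IsCoprime k0 2 ∧ k = 2 ^ j * k0 := by
  have hf : FiniteMultiplicity (2 : O) k := FiniteMultiplicity.of_prime_left prime_two_O hk
  obtain ⟨c, hc, hnd⟩ := hf.exists_eq_pow_mul_and_not_dvd
  exact ⟨_, c, odd_iff_not_dvd.2 hnd, hc⟩

/-- `(k/b)_2` depends only on `b` modulo `8k`, for odd `b` -/
theorem q2_congr_right {k b b' : O} (hk : k ≠ 0) (hb : IsCoprime b 2) (hb' : IsCoprime b' 2)
    (h : 8 * k ∣ b - b') : q2 k b = q2 k b' := by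
  obtain ⟨j, k0, hk0, hkk⟩ := exists_two_pow_mul hk
  have h8 : (8 : O) ∣ b - b' := (dvd_mul_right 8 k).trans h
  have h4 : (4 : O) ∣ b - b' := Dvd.dvd.trans ⟨2, by norm_num⟩ h8
  have hk0d : k0 ∣ b - b' := by
    refine dvd_trans ?_ h
    rw [hkk]
    exact Dvd.intro_left (8 * 2 ^ j) (by ring)
  rw [hkk, q2_mul_left, q2_mul_left, q2_pow_left, q2_pow_left, q2_two_congr hb hb' h8,
    q2_recip' hk0 hb, q2_recip' hk0 hb', hil_congr_right k0 h4, q2_periodic hk0d]

theorem rho_congr_left {k b b' : O} (hk : k ≠ 0) (hb : IsCoprime b 2) (hb' : IsCoprime b' 2)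
    (h : 8 * k ∣ b - b') : rho b k = rho b' k := by
  rw [rho, rho, q2_congr_right hk hb hb' h]

/-- (PER) `(k/m)_6` depends only on `m` modulo `72 k`, for primary odd `m` -/
theorem x6_congr_left {k m m' : O} (hk : k ≠ 0) (hm : Primary m) (hm' : Primary m')
    (h2 : IsCoprime m 2) (h2' : IsCoprime m' 2) (h : 72 * k ∣ m - m') : x6 m k = x6 m' k := by
  rw [x6, x6, rho_congr_left hk h2 h2' (Dvd.dvd.trans ⟨9, by ring⟩ h),
    sym_congr_right hk hm hm' (Dvd.dvd.trans ⟨8, by ring⟩ h)]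

end Vale.Agent.P026Z.Sym
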