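import Vale.Agent.P026Z.Sym.Sext
import Vale.Agent.P026Z.TH.Coef
import Vale.Agent.P026Z.Vor.Defs
import Vale.Agent.P026Z.Poi.Basic

/-!
P026, block SYM: the normalised Gauss sums, the cube weights and the theta coefficients.
-/

namespace Vale.Agent.P026Z.Sym

open Vale.Agent.P006 Vale.Agent.P006.V1 Vale.Agent.P026Z.TH Vale.Agent.P026Z.Poi
open scoped ComplexConjugate

/-- the normalised cubic Gauss sum times `conj(n/|n|)` -/
noncomputable def gS (n : O) : ℂ := conj (alpha n) * gt 1 n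

/-- the weight of a cube -/
noncomputable def wS (b : O) : ℂ := (Real.sqrt (N b) : ℝ) * conj (alpha b) ^ 3

/-- the normalised theta coefficient -/
noncomputable def tauS (m : O) : ℂ := conj (Vor.cf th m * Vor.alp m) / conj (th 1)

theorem alp_eq_alpha (n : O) : Vor.alp n = alpha n := rfl

theorem norm_gS {n : O} (hn : Sq n) : ‖gS n‖ = 1 := by
  rw [gS, norm_mul, Complex.norm_conj, norm_alpha hn.ne_zero,
    norm_gt hn.1.1 hn.2 isCoprime_one_left, one_mul]

theorem gS_mul {d n : O} (hd : Sq d) (hn : Sq n) (h : IsCoprime d n) :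
    gS (d * n) = gS d * gS n * x6 n (d ^ 4) := by
  rw [gS, gS, gS, alpha_mul, map_mul, gt_mul_primary 1 hd.1.1 hn.1.1 h, x6_pow, x6_pow_four]
  simp only [ch]
  ring

theorem wS_mul (b c : O) : wS (b * c) = wS b * wS c := by
  rw [wS, wS, wS, alpha_mul, map_mul, N_mul', Real.sqrt_mul (by positivity)]
  push_cast
  ring

theorem wS_one : wS 1 = 1 := by simp [wS]

theorem norm_wS (b : O) : ‖wS b‖ ≤ Real.sqrt (N b) := by
  rw [wS, norm_mul, norm_pow, Complex.norm_conj, Complex.norm_real,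
    Real.norm_of_nonneg (Real.sqrt_nonneg _)]
  exact mul_le_of_le_one_right (Real.sqrt_nonneg _)
    (pow_le_one₀ (norm_nonneg _) (norm_alpha_le b))

theorem conj_th_one_ne_zero : conj (th 1) ≠ 0 := by
  rw [Ne, map_eq_zero]
  exact th_one_ne_zero

theorem tauS_spec (m : O) : conj (th 1) * tauS m = conj (Vor.cf th m * Vor.alp m) := by
  rw [tauS, mul_div_cancel₀ _ conj_th_one_ne_zero]

theorem tauS_eq {n b : O} (hn : Sq n) (hb : Adm b) : tauS (n * b ^ 3) = gS n * wS b := by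
  apply mul_left_cancel₀ conj_th_one_ne_zero
  have pn := N_pos' hn.ne_zero
  have pb := N_pos' hb.ne_zero
  have e1 : (N n : ℝ) ^ (-(1 / 6) : ℝ) * (N (n * b ^ 3) : ℝ) ^ (1 / 6 : ℝ) = Real.sqrt (N b) := by
    have e2 : (N (b ^ 3) : ℝ) = (N b : ℝ) ^ (3 : ℕ) := by
      rw [pow_succ, pow_two, N_mul', N_mul']; ring
    rw [N_mul', Real.mul_rpow pn.le (by positivity), ← mul_assoc, ← Real.rpow_add pn, e2,
      ← Real.rpow_natCast, ← Real.rpow_mul pb.le, Real.sqrt_eq_rpow]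
    norm_num
  have e3 := congrArg (fun x : ℝ => (x : ℂ)) e1
  simp only [Complex.ofReal_mul] at e3
  rw [tauS_spec, Vor.cf, th_primary ⟨hn.1.1, hn.2⟩ hb.1, alp_eq_alpha, alpha_mul, alpha_pow, gS, wS,
    ← e3]
  simp only [map_mul, map_pow, Complex.conj_conj, Complex.conj_ofReal]
  ring

theorem tauS_zero {k : O} (hk : Adm k) (h : ¬ ∃ n b : O, Sq n ∧ Adm b ∧ k = n * b ^ 3) :
    tauS k = 0 := by
  have h1 : th (1 * k) = 0 := by
    refine th_eq_zero ram_one hk.1 ?_
    rintro ⟨n, m, hn, hm, rfl⟩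
    refine h ⟨n, m, ⟨hk.of_dvd hn.1 (dvd_mul_right _ _), hn.2⟩, hk.of_dvd hm ?_, rfl⟩
    exact (dvd_pow_self m three_ne_zero).mul_left n
  rw [one_mul] at h1
  simp [tauS, Vor.cf, h1]

end Vale.Agent.P026Z.Sym
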